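import Mathlib

-- ▼ part PVc/R11/Defs
section

/-!
# Row 11 (irrationality exponent of pi is 2): definitions

`A = MvPolynomial (Fin (m+1)) ℂ`; index `0` is the exponential variable `y`, indices `i.succ`
are the additive variables `x_i`.
-/

set_option autoImplicit false

namespace Crest.Agent.R11
open MvPolynomial

noncomputable section

/-- Polynomials all of whose monomials have `w`-weight `≤ n`. -/
def Deg {σ : Type*} (w : σ → ℕ) (n : ℕ) : Submodule ℂ (MvPolynomial σ ℂ) :=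
  restrictSupport ℂ {d | Finsupp.weight w d ≤ n}

theorem weight_mono {σ : Type*} (w : σ → ℕ) : Monotone (Finsupp.weight w : (σ →₀ ℕ) → ℕ) := by
  intro a b hab
  obtain ⟨c, rfl⟩ := exists_add_of_le hab
  simp

/-- Polynomials all of whose monomials have `w`-weight `≥ t` (an ideal). -/
def Ord {σ : Type*} (w : σ → ℕ) (t : ℕ) : Ideal (MvPolynomial σ ℂ) :=
  restrictSupportIdeal ℂ {d | t ≤ Finsupp.weight w d}
    (fun _ _ hab ha => le_trans ha (weight_mono w hab))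

theorem mem_Deg {σ : Type*} {w : σ → ℕ} {n : ℕ} {f : MvPolynomial σ ℂ} :
    f ∈ Deg w n ↔ ∀ d, coeff d f ≠ 0 → Finsupp.weight w d ≤ n := by
  simp [Deg, mem_restrictSupport_iff, Set.subset_def]

theorem mem_Ord {σ : Type*} {w : σ → ℕ} {t : ℕ} {f : MvPolynomial σ ℂ} :
    f ∈ Ord w t ↔ ∀ d, Finsupp.weight w d < t → coeff d f = 0 := by
  have : f ∈ Ord w t ↔ f ∈ restrictSupport ℂ {d | t ≤ Finsupp.weight w d} := Iff.rfl
  rw [this, mem_restrictSupport_iff]
  simp only [Set.subset_def, Finset.mem_coe, mem_support_iff, Set.mem_ofPred_eq]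
  exact forall_congr' fun d => ⟨fun h hd => by_contra fun h' => absurd (h h') (not_le.2 hd),
    fun h h' => not_lt.1 fun hd => h' (h hd)⟩

/-- Number of exponent vectors of `w`-weight at most `s`. -/
def cnt {σ : Type*} (w : σ → ℕ) (s : ℕ) : ℕ :=
  Set.ncard {a : σ →₀ ℕ | Finsupp.weight w a ≤ s}

/-- Apply a word of derivations: `wordD D [i₁, …, i_r] f = D i₁ (D i₂ (… (D i_r f)))`. -/
def wordD {A ι : Type*} [CommRing A] [Algebra ℂ A] (D : ι → Derivation ℂ A A) :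
    List ι → A → A
  | [], f => f
  | i :: β, f => D i (wordD D β f)

/-- Weight of a word. -/
def wt {ι : Type*} (v : ι → ℕ) (β : List ι) : ℕ := (β.map v).sum

@[simp] theorem wordD_nil {A ι : Type*} [CommRing A] [Algebra ℂ A] (D : ι → Derivation ℂ A A)
    (f : A) : wordD D [] f = f := rfl

@[simp] theorem wordD_cons {A ι : Type*} [CommRing A] [Algebra ℂ A] (D : ι → Derivation ℂ A A)
    (i : ι) (β : List ι) (f : A) : wordD D (i :: β) f = D i (wordD D β f) := rfl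


theorem wordD_append {A ι : Type*} [CommRing A] [Algebra ℂ A] (D : ι → Derivation ℂ A A)
    (β γ : List ι) (f : A) : wordD D (β ++ γ) f = wordD D β (wordD D γ f) := by
  induction β with
  | nil => rfl
  | cons i β ih => simp [ih]

theorem wordD_add {A ι : Type*} [CommRing A] [Algebra ℂ A] (D : ι → Derivation ℂ A A)
    (β : List ι) (f g : A) : wordD D β (f + g) = wordD D β f + wordD D β g := by
  induction β with
  | nil => rfl
  | cons i β ih => simp [ih]

theorem wordD_zero {A ι : Type*} [CommRing A] [Algebra ℂ A] (D : ι → Derivation ℂ A A)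
    (β : List ι) : wordD D β 0 = 0 := by
  induction β with
  | nil => rfl
  | cons i β ih => simp [ih]


@[simp] theorem wt_nil {ι : Type*} (v : ι → ℕ) : wt v [] = 0 := rfl

@[simp] theorem wt_cons {ι : Type*} (v : ι → ℕ) (i : ι) (β : List ι) :
    wt v (i :: β) = v i + wt v β := by simp [wt]

@[simp] theorem wt_append {ι : Type*} (v : ι → ℕ) (β γ : List ι) :
    wt v (β ++ γ) = wt v β + wt v γ := by simp [wt]

/-- Leibniz rule for words, in the form needed for the filtration. -/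
theorem wordD_mul_mem {A ι : Type*} [CommRing A] [Algebra ℂ A] (D : ι → Derivation ℂ A A)
    (v : ι → ℕ) (q : Ideal A) (β : List ι) :
    ∀ (s t : ℕ) (f g : A), (∀ γ, wt v γ < s → wordD D γ f ∈ q) →
      (∀ γ, wt v γ < t → wordD D γ g ∈ q) → wt v β < s + t → wordD D β (f * g) ∈ q := by
  induction β using List.reverseRecOn with
  | nil =>
    intro s t f g hf hg h
    rcases Nat.eq_zero_or_pos s with rfl | hs
    · exact q.mul_mem_left _ (hg [] (by simpa using h))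
    · exact q.mul_mem_right _ (hf [] (by simpa using hs))
  | append_singleton β i ih =>
    intro s t f g hf hg h
    rw [wordD_append]
    simp only [wordD_cons, wordD_nil, Derivation.leibniz, smul_eq_mul, wordD_add]
    simp only [wt_append, wt_cons, wt_nil] at h
    refine q.add_mem (ih s (t - v i) _ _ hf (fun γ hγ => ?_) (by omega))
      (ih t (s - v i) _ _ hg (fun γ hγ => ?_) (by omega))
    · have := hg (γ ++ [i]) (by simp; omega)
      rwa [wordD_append] at this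
    · have := hf (γ ++ [i]) (by simp; omega)
      rwa [wordD_append] at this

/-- The filtration `F_q^t = {f | D^β f ∈ q for all words β of weight < t}`. -/
def FQ {A ι : Type*} [CommRing A] [Algebra ℂ A] (D : ι → Derivation ℂ A A) (v : ι → ℕ)
    (q : Ideal A) (t : ℕ) : Ideal A where
  carrier := {f | ∀ β, wt v β < t → wordD D β f ∈ q}
  add_mem' hf hg β hβ := by rw [wordD_add]; exact q.add_mem (hf β hβ) (hg β hβ)
  zero_mem' β _ := by rw [wordD_zero]; exact q.zero_mem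
  smul_mem' c f hf β hβ :=
    wordD_mul_mem D v q β 0 t c f (fun _ h => absurd h (Nat.not_lt_zero _)) hf (by simpa using hβ)


theorem FQ_mul {A ι : Type*} [CommRing A] [Algebra ℂ A] {D : ι → Derivation ℂ A A} {v : ι → ℕ}
    {q : Ideal A} {s t : ℕ} {f g : A} (hf : f ∈ FQ D v q s) (hg : g ∈ FQ D v q t) :
    f * g ∈ FQ D v q (s + t) :=
  fun β hβ => wordD_mul_mem D v q β s t f g hf hg hβ

theorem FQ_anti {A ι : Type*} [CommRing A] [Algebra ℂ A] (D : ι → Derivation ℂ A A) (v : ι → ℕ)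
    (q : Ideal A) : Antitone (FQ D v q) :=
  fun _ _ hst _ hf β hβ => hf β (lt_of_lt_of_le hβ hst)

theorem FQ_zero {A ι : Type*} [CommRing A] [Algebra ℂ A] (D : ι → Derivation ℂ A A) (v : ι → ℕ)
    (q : Ideal A) (f : A) : f ∈ FQ D v q 0 :=
  fun _ h => absurd h (Nat.not_lt_zero _)

theorem FQ_one {A ι : Type*} [CommRing A] [Algebra ℂ A] (D : ι → Derivation ℂ A A) {v : ι → ℕ}
    (hv : ∀ i, 0 < v i) {q : Ideal A} {f : A} (hf : f ∈ q) : f ∈ FQ D v q 1 := by
  intro β hβ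
  cases β with
  | nil => exact hf
  | cons i β => have := hv i; simp at hβ; omega

/-- The asymptotic surjectivity property `C(b)`. -/
def SurjC {R₀ A : Type*} [CommRing R₀] [CommRing A] [Algebra R₀ A] (P : ℕ → Submodule R₀ A)
    (F : ℕ → Ideal A) (x : ℝ) (b : Ideal A) : Prop :=
  ∀ x' : ℝ, x' < x → ∃ N : ℕ, ∀ n : ℕ, N ≤ n → ∀ t : ℕ, (t : ℝ) ≤ x' * n → ∀ g : A,
    ∃ s : R₀, s ≠ 0 ∧ ∃ p ∈ P n, ∃ u ∈ b, ∃ φ ∈ F t, s • g = p + u + φ

/-- The derivation `δ = y ∂_y + ∑ Q_i ∂_{x_i}`. -/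
def delta {m : ℕ} (Q : Fin m → ℂ) :
    Derivation ℂ (MvPolynomial (Fin (m + 1)) ℂ) (MvPolynomial (Fin (m + 1)) ℂ) :=
  mkDerivation ℂ (Fin.cons (X 0) (fun i => C (Q i)) : Fin (m + 1) → MvPolynomial (Fin (m + 1)) ℂ)

/-- The family of derivations `D 0 = δ`, `D (i+1) = ∂_{x_i}`. -/
def DD {m : ℕ} (Q : Fin m → ℂ) : Fin (m + 1) →
    Derivation ℂ (MvPolynomial (Fin (m + 1)) ℂ) (MvPolynomial (Fin (m + 1)) ℂ) :=
  Fin.cons (delta Q) (fun i => pderiv i.succ)

@[simp] theorem DD_zero {m : ℕ} (Q : Fin m → ℂ) : DD Q 0 = delta Q := rfl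
@[simp] theorem DD_succ {m : ℕ} (Q : Fin m → ℂ) (i : Fin m) : DD Q i.succ = pderiv i.succ := rfl

theorem DD_of_ne {m : ℕ} (Q : Fin m → ℂ) {i : Fin (m + 1)} (hi : i ≠ 0) : DD Q i = pderiv i := by
  obtain ⟨j, rfl⟩ := Fin.exists_succ_eq.2 hi
  rfl

@[simp] theorem delta_X_zero {m : ℕ} (Q : Fin m → ℂ) : delta Q (X 0) = X 0 := by
  simp [delta, mkDerivation_X]

@[simp] theorem delta_X_succ {m : ℕ} (Q : Fin m → ℂ) (i : Fin m) :
    delta Q (X i.succ) = C (Q i) := by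
  simp [delta, mkDerivation_X]

theorem derivation_sum_apply {A ι : Type*} [CommRing A] [Algebra ℂ A] (s : Finset ι)
    (D : ι → Derivation ℂ A A) (f : A) : (∑ i ∈ s, D i) f = ∑ i ∈ s, D i f := by
  classical
  induction s using Finset.induction_on with
  | empty => simp
  | insert i s hi ih => simp [Finset.sum_insert hi, ih]

theorem delta_apply {m : ℕ} (Q : Fin m → ℂ) (f : MvPolynomial (Fin (m + 1)) ℂ) :
    delta Q f = X 0 * pderiv 0 f + ∑ i : Fin m, C (Q i) * pderiv i.succ f := by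
  have : delta Q = (X 0 : MvPolynomial (Fin (m + 1)) ℂ) • pderiv 0 +
      ∑ i : Fin m, (C (Q i) : MvPolynomial (Fin (m + 1)) ℂ) • pderiv i.succ := by
    apply derivation_ext
    intro j
    refine Fin.cases ?_ (fun j => ?_) j
    · simp [derivation_sum_apply, pderiv_X, Pi.single_apply, (Fin.succ_ne_zero _).symm]
    · simp [derivation_sum_apply, pderiv_X, Pi.single_apply]
  rw [this]
  simp [derivation_sum_apply]

/-- The weights of the derivations: `1` for `δ`, `ω i` for `∂_{x_i}`. -/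
def vw {m : ℕ} (ω : Fin (m + 1) → ℕ) : Fin (m + 1) → ℕ := Fin.cons 1 (fun i => ω i.succ)

@[simp] theorem vw_zero {m : ℕ} (ω : Fin (m + 1) → ℕ) : vw ω 0 = 1 := rfl
@[simp] theorem vw_succ {m : ℕ} (ω : Fin (m + 1) → ℕ) (i : Fin m) : vw ω i.succ = ω i.succ := rfl

theorem vw_of_ne {m : ℕ} (ω : Fin (m + 1) → ℕ) {i : Fin (m + 1)} (hi : i ≠ 0) : vw ω i = ω i := by
  obtain ⟨j, rfl⟩ := Fin.exists_succ_eq.2 hi
  rfl

theorem vw_pos {m : ℕ} {ω : Fin (m + 1) → ℕ} (hω : ∀ i, 0 < ω i) (i : Fin (m + 1)) :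
    0 < vw ω i := by
  refine Fin.cases ?_ (fun j => ?_) i
  · simp
  · simpa using hω _

/-- The local coordinates at a point: `y ↦ 1 + Y`, `x_i ↦ X_i + c_i(Y)`. -/
def tau {m : ℕ} (c : Fin m → Polynomial ℂ) :
    MvPolynomial (Fin (m + 1)) ℂ →ₐ[ℂ] MvPolynomial (Fin (m + 1)) ℂ :=
  aeval (Fin.cons (1 + X 0) (fun i => X i.succ + Polynomial.aeval (X 0) (c i)) :
    Fin (m + 1) → MvPolynomial (Fin (m + 1)) ℂ)

@[simp] theorem tau_X_zero {m : ℕ} (c : Fin m → Polynomial ℂ) : tau c (X 0) = 1 + X 0 := by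
  simp [tau]

@[simp] theorem tau_X_succ {m : ℕ} (c : Fin m → Polynomial ℂ) (i : Fin m) :
    tau c (X i.succ) = X i.succ + Polynomial.aeval (X 0) (c i) := by
  simp [tau]

/-- The base point `(1, c_1(0), …, c_m(0))` of `tau c`. -/
def pt {m : ℕ} (c : Fin m → Polynomial ℂ) : Fin (m + 1) → ℂ :=
  Fin.cons 1 (fun i => (c i).coeff 0)

/-- `Q · (Y - Y²/2 + Y³/3 - …)`, truncated below degree `w`. -/
def logPoly (Q : ℂ) (w : ℕ) : Polynomial ℂ :=
  ∑ j ∈ Finset.range w, Polynomial.C (Q * (-1) ^ (j + 1) / (j : ℂ)) * Polynomial.X ^ j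

/-- The scale `Q_i = q_i · lcm(1..w_i)`. -/
def QQ (q w : ℕ) : ℕ := q * Nat.lcmUpto w

/-- The concrete curve `c_{k,i}(Y) = k · 2 i p_i L_i + Q_i · logTaylor_{w_i}(Y)`. -/
def cpoly (k : ℕ) (p : ℤ) (q w : ℕ) : Polynomial ℂ :=
  Polynomial.C ((k : ℂ) * (2 * Complex.I * p * (Nat.lcmUpto w : ℂ))) + logPoly (QQ q w) w

end

end Crest.Agent.R11
private theorem rz_f92eec8d1b : type_of% @_root_.Crest.Agent.R11.wordD.eq_def := @_root_.Crest.Agent.R11.wordD.eq_def -- L48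
private theorem rz_8d41d3c66e : type_of% @_root_.Crest.Agent.R11.wordD.eq_1 := @_root_.Crest.Agent.R11.wordD.eq_1 -- L48
end

-- ▼ part PVc/R11/Basic

set_option autoImplicit false

namespace Crest.Agent.R11
open MvPolynomial

/-! Basic facts on `Deg` and `Ord`. -/

theorem Deg_mono {σ : Type*} (w : σ → ℕ) : Monotone (Deg w) :=
  fun _ _ h _ hf => mem_Deg.2 fun d hd => (mem_Deg.1 hf d hd).trans h

theorem Deg_mul {σ : Type*} {w : σ → ℕ} {a b : ℕ} {f g : MvPolynomial σ ℂ} (hf : f ∈ Deg w a)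
    (hg : g ∈ Deg w b) : f * g ∈ Deg w (a + b) := by
  classical
  refine mem_Deg.2 fun d hd => ?_
  rw [coeff_mul] at hd
  obtain ⟨⟨i, j⟩, hij, e⟩ := Finset.exists_ne_zero_of_sum_ne_zero hd
  rw [← Finset.HasAntidiagonal.mem_antidiagonal.1 hij, map_add]
  exact add_le_add (mem_Deg.1 hf _ (left_ne_zero_of_mul e)) (mem_Deg.1 hg _ (right_ne_zero_of_mul e))

theorem Deg_exists {σ : Type*} (w : σ → ℕ) (f : MvPolynomial σ ℂ) : ∃ n, f ∈ Deg w n :=
  ⟨f.support.sup (Finsupp.weight w), mem_Deg.2 fun _ hd => Finset.le_sup (mem_support_iff.2 hd)⟩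

theorem monomial_mem_Deg {σ : Type*} {w : σ → ℕ} {n : ℕ} {a : σ →₀ ℕ} (c : ℂ)
    (ha : Finsupp.weight w a ≤ n) : monomial a c ∈ Deg w n := by
  classical
  refine mem_Deg.2 fun d hd => ?_
  rw [coeff_monomial] at hd
  split_ifs at hd with h
  · exact h ▸ ha
  · exact absurd rfl hd

theorem C_mem_Deg {σ : Type*} (w : σ → ℕ) (n : ℕ) (c : ℂ) : (C c : MvPolynomial σ ℂ) ∈ Deg w n :=
  monomial_mem_Deg c (by simp)

theorem X_mem_Deg {σ : Type*} (w : σ → ℕ) (i : σ) : (X i : MvPolynomial σ ℂ) ∈ Deg w (w i) :=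
  monomial_mem_Deg 1 (by simp [Finsupp.weight_single])

theorem Deg_eq_span {σ : Type*} (w : σ → ℕ) (n : ℕ) :
    Deg w n = Submodule.span ℂ ((monomial · (1 : ℂ)) '' {d | Finsupp.weight w d ≤ n}) :=
  restrictSupport_eq_span _ _

theorem Ord_anti {σ : Type*} (w : σ → ℕ) : Antitone (Ord w) :=
  fun _ _ h _ hf => mem_Ord.2 fun d hd => mem_Ord.1 hf d (lt_of_lt_of_le hd h)

theorem Ord_zero {σ : Type*} (w : σ → ℕ) (f : MvPolynomial σ ℂ) : f ∈ Ord w 0 :=
  mem_Ord.2 fun _ h => absurd h (Nat.not_lt_zero _)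

theorem Ord_mul {σ : Type*} {w : σ → ℕ} {a b : ℕ} {f g : MvPolynomial σ ℂ} (hf : f ∈ Ord w a)
    (hg : g ∈ Ord w b) : f * g ∈ Ord w (a + b) := by
  classical
  refine mem_Ord.2 fun d hd => ?_
  rw [coeff_mul]
  refine Finset.sum_eq_zero fun ⟨i, j⟩ hij => ?_
  rw [← Finset.HasAntidiagonal.mem_antidiagonal.1 hij, map_add] at hd
  by_cases hi : Finsupp.weight w i < a
  · simp [mem_Ord.1 hf i hi]
  · simp [mem_Ord.1 hg j (by simp at hd; omega)]

theorem Ord_pow {σ : Type*} {w : σ → ℕ} {a : ℕ} {f : MvPolynomial σ ℂ} (hf : f ∈ Ord w a)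
    (n : ℕ) : f ^ n ∈ Ord w (n * a) := by
  induction n with
  | zero => simpa using Ord_zero w 1
  | succ n ih => rw [pow_succ, add_mul, one_mul]; exact Ord_mul ih hf

theorem monomial_mem_Ord {σ : Type*} {w : σ → ℕ} {t : ℕ} {a : σ →₀ ℕ} (c : ℂ)
    (ha : t ≤ Finsupp.weight w a) : monomial a c ∈ Ord w t := by
  classical
  refine mem_Ord.2 fun d hd => ?_
  rw [coeff_monomial]
  split_ifs with h
  · subst h; omega
  · rfl

theorem X_mem_Ord {σ : Type*} (w : σ → ℕ) (i : σ) : (X i : MvPolynomial σ ℂ) ∈ Ord w (w i) :=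
  monomial_mem_Ord 1 (by simp [Finsupp.weight_single])

theorem pderiv_mem_Deg {σ : Type*} {w : σ → ℕ} {n : ℕ} {f : MvPolynomial σ ℂ} (i : σ)
    (hf : f ∈ Deg w n) : pderiv i f ∈ Deg w (n - w i) := by
  classical
  refine mem_Deg.2 fun d hd => ?_
  rw [coeff_pderiv] at hd
  have := mem_Deg.1 hf _ (left_ne_zero_of_mul hd)
  simp [Finsupp.weight_single] at this
  omega

theorem X_mul_pderiv_mem_Deg {σ : Type*} {w : σ → ℕ} {n : ℕ} {f : MvPolynomial σ ℂ} (i : σ)
    (hf : f ∈ Deg w n) : X i * pderiv i f ∈ Deg w n := by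
  classical
  refine mem_Deg.2 fun d hd => ?_
  rw [coeff_X_mul'] at hd
  split_ifs at hd with h
  · rw [coeff_pderiv] at hd
    have := mem_Deg.1 hf _ (left_ne_zero_of_mul hd)
    rwa [tsub_add_cancel_of_le (by simpa [Finsupp.single_le_iff, Nat.one_le_iff_ne_zero] using h)]
      at this
  · exact absurd rfl hd

theorem pderiv_mem_Ord {σ : Type*} {w : σ → ℕ} {t : ℕ} {f : MvPolynomial σ ℂ} (i : σ)
    (hf : f ∈ Ord w t) : pderiv i f ∈ Ord w (t - w i) := by
  classical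
  refine mem_Ord.2 fun d hd => ?_
  rw [coeff_pderiv, mem_Ord.1 hf _ (by simp [Finsupp.weight_single]; omega), zero_mul]

theorem DD_mem_Deg {m : ℕ} (Q : Fin m → ℂ) {w : Fin (m + 1) → ℕ} {n : ℕ}
    {f : MvPolynomial (Fin (m + 1)) ℂ} (i : Fin (m + 1)) (hf : f ∈ Deg w n) :
    DD Q i f ∈ Deg w n := by
  refine Fin.cases ?_ (fun j => ?_) i
  · rw [DD_zero, delta_apply]
    refine (Deg w n).add_mem (X_mul_pderiv_mem_Deg 0 hf) (Submodule.sum_mem _ fun j _ => ?_)
    rw [C_mul']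
    exact (Deg w n).smul_mem _ (Deg_mono w (Nat.sub_le _ _) (pderiv_mem_Deg _ hf))
  · exact Deg_mono w (Nat.sub_le _ _) (pderiv_mem_Deg _ hf)

theorem wordD_mem_Deg {m : ℕ} (Q : Fin m → ℂ) {w : Fin (m + 1) → ℕ} {n : ℕ}
    {f : MvPolynomial (Fin (m + 1)) ℂ} (β : List (Fin (m + 1))) (hf : f ∈ Deg w n) :
    wordD (DD Q) β f ∈ Deg w n := by
  induction β with
  | nil => exact hf
  | cons i β ih => exact DD_mem_Deg Q i ih

theorem cnt_finite {σ : Type*} [Finite σ] {w : σ → ℕ} (hw : ∀ i, 0 < w i) (s : ℕ) :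
    {a : σ →₀ ℕ | Finsupp.weight w a ≤ s}.Finite :=
  Finsupp.finite_of_nat_weight_le w (fun i => (hw i).ne') s

theorem weight_eq_sum {σ : Type*} [Fintype σ] (w : σ → ℕ) (a : σ →₀ ℕ) :
    Finsupp.weight w a = ∑ i, a i * w i := by
  rw [Finsupp.weight_apply, Finsupp.sum_fintype _ _ (by simp)]
  simp

end Crest.Agent.R11
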