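import Crest.Agent.PVc.R11.Basic
import Crest.Agent.PVc.R11.Surj
import Crest.Agent.PVc.R11.Count

-- ▼ part PVc/R11/Indep
section

set_option autoImplicit false

namespace Crest.Agent.R11
open MvPolynomial

namespace IndepAux

/-- A derivation lowers the power of an ideal by at most one. -/
theorem der_pow {R A : Type*} [CommRing R] [CommRing A] [Algebra R A] (d : Derivation R A A)
    (q : Ideal A) (n : ℕ) : ∀ f ∈ q ^ (n + 1), d f ∈ q ^ n := by
  induction n with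
  | zero => intro f _; simp
  | succ n ih =>
    intro f hf
    rw [pow_succ] at hf
    refine Submodule.mul_induction_on hf (fun a ha b hb => ?_) (fun a b ha hb => ?_)
    · rw [d.leibniz, smul_eq_mul, smul_eq_mul]
      refine Ideal.add_mem _ (Ideal.mul_mem_right _ _ ha) ?_
      rw [mul_comm, pow_succ]
      exact Ideal.mul_mem_mul (ih a ha) hb
    · rw [map_add]
      exact Ideal.add_mem _ ha hb

section

variable {A κ : Type*} [CommRing A] [Algebra ℂ A] [DecidableEq κ]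

/-- Compatibility of a derivation with the formal partial derivative. -/
def T (d : Derivation ℂ A A) (q : Ideal A) (h : κ → A) (s : A) (i : κ) (n : ℕ)
    (p : MvPolynomial κ A) : Prop :=
  eval h p ∈ q ^ n ∧ d (eval h p) - s * eval h (pderiv i p) ∈ q ^ n

variable {d : Derivation ℂ A A} {q : Ideal A} {h : κ → A} {s : A} {i : κ}

omit [DecidableEq κ] in
theorem T.zero (p : MvPolynomial κ A) : T d q h s i 0 p := by simp [T]

omit [DecidableEq κ] in
theorem T.add {n : ℕ} {a b : MvPolynomial κ A} (ha : T d q h s i n a) (hb : T d q h s i n b) :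
    T d q h s i n (a + b) := by
  refine ⟨by rw [map_add]; exact Ideal.add_mem _ ha.1 hb.1, ?_⟩
  have := Ideal.add_mem _ ha.2 hb.2
  convert this using 1
  simp only [map_add]
  ring

omit [DecidableEq κ] in
theorem T.mul {n m : ℕ} {a b : MvPolynomial κ A} (ha : T d q h s i n a) (hb : T d q h s i m b) :
    T d q h s i (n + m) (a * b) := by
  rw [T, pow_add]
  refine ⟨by rw [map_mul]; exact Ideal.mul_mem_mul ha.1 hb.1, ?_⟩
  have := Ideal.add_mem _ (Ideal.mul_mem_mul ha.2 hb.1) (Ideal.mul_mem_mul ha.1 hb.2)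
  convert this using 1
  simp only [map_mul, Derivation.leibniz, smul_eq_mul, map_add]
  ring

theorem T.one (hq : ∀ j, h j ∈ q) (hD : ∀ j, d (h j) - (if j = i then s else 0) ∈ q)
    {p : MvPolynomial κ A} (hp : p ∈ idealOfVars κ A) : T d q h s i 1 p := by
  refine Submodule.span_induction (p := fun p _ => T d q h s i 1 p) ?_ ?_ ?_ ?_ hp
  · rintro _ ⟨j, rfl⟩
    refine ⟨by simpa using hq j, ?_⟩
    have := hD j
    rw [pow_one]
    convert this using 2
    · simp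
    · by_cases hj : j = i
      · subst hj; simp
      · simp [hj, pderiv_X]
  · simp [T]
  · intro a b _ _ ha hb
    exact ha.add hb
  · intro a b _ hb
    simpa using (T.zero a).mul hb

theorem T.pow (hq : ∀ j, h j ∈ q) (hD : ∀ j, d (h j) - (if j = i then s else 0) ∈ q) (n : ℕ) :
    ∀ p ∈ idealOfVars κ A ^ n, T d q h s i n p := by
  induction n with
  | zero => intro p _; exact T.zero p
  | succ n ih =>
    intro p hp
    rw [pow_succ] at hp
    exact Submodule.mul_induction_on hp (fun a ha b hb => (ih a ha).mul (T.one hq hD hb))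
      (fun a b ha hb => ha.add hb)

end

/-- Iterated formal partial derivatives. -/
noncomputable def pd {A κ : Type*} [CommRing A] (β : List κ) (p : MvPolynomial κ A) :
    MvPolynomial κ A :=
  β.foldr (fun i r => pderiv i r) p

/-- The exponent vector of a word. -/
noncomputable def ex {κ : Type*} (β : List κ) : κ →₀ ℕ := (β.map fun i => Finsupp.single i 1).sum

theorem ex_cons {κ : Type*} (i : κ) (β : List κ) : ex (i :: β) = Finsupp.single i 1 + ex β := by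
  simp [ex]

theorem exists_ex {κ : Type*} (α : κ →₀ ℕ) : ∃ β, ex β = α := by
  induction α using Finsupp.induction_linear with
  | zero => exact ⟨[], rfl⟩
  | add f g hf hg =>
    obtain ⟨β, rfl⟩ := hf
    obtain ⟨γ, rfl⟩ := hg
    exact ⟨β ++ γ, by simp [ex]⟩
  | single i n => exact ⟨List.replicate n i, by simp [ex]⟩

theorem weight_ex {κ : Type*} (w : κ → ℕ) (β : List κ) :
    Finsupp.weight w (ex β) = (β.map w).sum := by
  induction β with
  | nil => simp [ex]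
  | cons i β ih => simp [ex_cons, ih, Finsupp.weight_single]

theorem degree_ex {κ : Type*} (β : List κ) : (ex β).degree = β.length := by
  induction β with
  | nil => simp [ex]
  | cons i β ih => simp [ex_cons, ih, add_comm]

theorem coeff_pd {A κ : Type*} [CommRing A] (β : List κ) (p : MvPolynomial κ A) :
    ∀ γ, ∃ c : ℕ, c ≠ 0 ∧ coeff γ (pd β p) = coeff (γ + ex β) p * c := by
  induction β with
  | nil => intro γ; exact ⟨1, one_ne_zero, by simp [pd, ex]⟩
  | cons i β ih =>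
    intro γ
    obtain ⟨c, hc, h⟩ := ih (γ + Finsupp.single i 1)
    refine ⟨c * (γ i + 1), by positivity, ?_⟩
    have : pd (i :: β) p = pderiv i (pd β p) := rfl
    rw [this, coeff_pderiv, h, ex_cons, add_assoc]
    push_cast
    ring

theorem word_approx {A ι κ : Type*} [CommRing A] [Algebra ℂ A] [DecidableEq κ]
    (D : ι → Derivation ℂ A A) (q : Ideal A) (h : κ → A) (hq : ∀ i, h i ∈ q) (σ : κ → ι) (s : A)
    (hD : ∀ i i', D (σ i') (h i) - (if i = i' then s else 0) ∈ q) (p : MvPolynomial κ A)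
    (β : List κ) : ∀ m : ℕ, p ∈ idealOfVars κ A ^ (β.length + m) →
      pd β p ∈ idealOfVars κ A ^ m ∧
        wordD D (β.map σ) (eval h p) - s ^ β.length * eval h (pd β p) ∈ q ^ (m + 1) := by
  induction β with
  | nil => intro m hp; exact ⟨by simpa [pd] using hp, by simp [pd]⟩
  | cons i β ih =>
    intro m hp
    obtain ⟨h₁, h₂⟩ := ih (m + 1) (by
      rwa [List.length_cons, add_assoc, add_comm 1 m] at hp)
    have e : pd (i :: β) p = pderiv i (pd β p) := rfl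
    rw [e]
    refine ⟨der_pow _ _ _ _ h₁, ?_⟩
    obtain ⟨h₃, h₄⟩ := T.pow (d := D (σ i)) (s := s) (i := i) hq (fun j => hD j i) _ _ h₁
    have h₅ := der_pow (D (σ i)) q _ _ h₂
    have := Ideal.add_mem _ (Ideal.add_mem _ h₅
      (Ideal.mul_mem_right (D (σ i) (s ^ β.length)) _ h₃)) (Ideal.mul_mem_left _ (s ^ β.length) h₄)
    convert this using 1
    simp only [List.map_cons, wordD_cons, List.length_cons, map_sub, Derivation.leibniz,
      smul_eq_mul]
    ring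

end IndepAux

open IndepAux in
/-- Monomials in a dual system `h` are independent modulo the filtration `FQ`. -/
theorem indep_FQ {A ι κ : Type*} [CommRing A] [Algebra ℂ A] [Fintype κ] [DecidableEq κ]
    (D : ι → Derivation ℂ A A) (v : ι → ℕ) (q : Ideal A) (hqp : q.IsPrime) (h : κ → A)
    (hq : ∀ i, h i ∈ q) (σ : κ → ι) (s : A) (hs : s ∉ q)
    (hD : ∀ i i', D (σ i') (h i) - (if i = i' then s else 0) ∈ q)
    (t : ℕ) (S : Finset (κ →₀ ℕ)) (hS : ∀ α ∈ S, Finsupp.weight (fun i => v (σ i)) α < t)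
    (a : (κ →₀ ℕ) → A) (hsum : ∑ α ∈ S, a α * ∏ i, h i ^ α i ∈ FQ D v q t)
    (ha : ∀ α ∈ S, a α ∈ q → a α = 0) : ∀ α ∈ S, a α = 0 := by
  classical
  by_contra hne
  push Not at hne
  obtain ⟨α₀, hα₀, hα₀'⟩ := hne
  obtain ⟨α, hαm, hmin⟩ := Finset.exists_min_image (S.filter fun α => a α ≠ 0) Finsupp.degree
    ⟨α₀, Finset.mem_filter.2 ⟨hα₀, hα₀'⟩⟩
  obtain ⟨hα, hα'⟩ := Finset.mem_filter.1 hαm
  obtain ⟨β, rfl⟩ := exists_ex α
  set p : MvPolynomial κ A := ∑ γ ∈ S, monomial γ (a γ) with hp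
  have hcoeff : ∀ γ, coeff γ p = if γ ∈ S then a γ else 0 := by
    intro γ
    simp [hp, coeff_sum, coeff_monomial]
  have hev : eval h p = ∑ α ∈ S, a α * ∏ i, h i ^ α i := by
    simp [hp, eval_monomial, Finsupp.prod_fintype]
  have hpI : p ∈ idealOfVars κ A ^ (β.length + 0) := by
    rw [mem_pow_idealOfVars_iff']
    intro γ hγ
    rw [hcoeff]
    split_ifs with hγS
    · by_contra hne
      have := hmin γ (Finset.mem_filter.2 ⟨hγS, hne⟩)
      rw [degree_ex] at this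
      omega
    · rfl
  obtain ⟨-, h₂⟩ := word_approx D q h hq σ s hD p β 0 hpI
  have h₃ : wordD D (β.map σ) (eval h p) ∈ q := by
    rw [hev]
    refine hsum _ ?_
    have := hS _ hα
    rwa [weight_ex, ← Function.comp_def v σ, ← List.map_map] at this
  rw [zero_add, pow_one] at h₂
  have h₄ : s ^ β.length * eval h (pd β p) ∈ q := by
    have := q.sub_mem h₃ h₂
    simpa using this
  have h₅ : eval h (pd β p) ∈ q :=
    (hqp.mem_or_mem h₄).resolve_left fun h' => hs (hqp.mem_of_pow_mem _ h')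
  obtain ⟨c, hc, h₆⟩ := coeff_pd β p 0
  have h₇ : pd β p - C (coeff 0 (pd β p)) ∈ idealOfVars κ A ^ 1 := by
    rw [mem_pow_idealOfVars_iff']
    intro γ hγ
    obtain rfl : γ = 0 := (Finsupp.degree_eq_zero_iff γ).1 (by omega)
    simp
  have h₈ : eval h (pd β p - C (coeff 0 (pd β p))) ∈ q := by
    rw [pow_one] at h₇
    have : Ideal.map (eval h) (idealOfVars κ A) ≤ q := by
      rw [Ideal.map_le_iff_le_comap, idealOfVars, Ideal.span_le]
      rintro _ ⟨j, rfl⟩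
      simpa using hq j
    exact this (Ideal.mem_map_of_mem _ h₇)
  have h₉ : a (ex β) * c ∈ q := by
    have := q.sub_mem h₅ h₈
    rw [map_sub, eval_C, sub_sub_cancel, h₆, zero_add, hcoeff, if_pos hα] at this
    exact this
  have hu : IsUnit (c : A) := by
    have : IsUnit (c : ℂ) := (Nat.cast_ne_zero.2 hc).isUnit
    simpa using this.map (algebraMap ℂ A)
  exact hα' (ha _ hα ((Ideal.mul_unit_mem_iff_mem q hu).1 h₉))

end Crest.Agent.R11
end

-- ▼ part PVc/R11/Alg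
section

set_option autoImplicit false

namespace Crest.Agent.R11
open MvPolynomial

/-- `A / q` is algebraic over `ℂ[x_J]`. -/
theorem alg_isAlgebraic {ι : Type*} (q : Ideal (MvPolynomial ι ℂ)) (J : Set ι)
    (halg : ∀ i, i ∉ J → ∃ g, g ≠ 0 ∧ g ∈ q ∧ g ∈ supported ℂ (insert i J)) :
    Algebra.IsAlgebraic (supported ℂ J) (MvPolynomial ι ℂ ⧸ q) := by
  have hX : ∀ i, IsAlgebraic (supported ℂ J) (Ideal.Quotient.mk q (X i)) := fun i => by
    by_cases hi : i ∈ J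
    · exact isAlgebraic_algebraMap (R := supported ℂ J) ⟨X i, X_mem_supported.2 hi⟩
    · obtain ⟨g, hg0, hgq, hg⟩ := halg i hi
      have hle : supported ℂ (insert i J) ≤
          (Polynomial.aeval (R := supported ℂ J) (X i : MvPolynomial ι ℂ)).range.restrictScalars ℂ := by
        rw [supported_eq_adjoin_X]
        refine Algebra.adjoin_le ?_
        rintro _ ⟨j, hj | hj, rfl⟩
        · exact ⟨Polynomial.X, by simp [hj]⟩
        · exact ⟨Polynomial.C ⟨X j, X_mem_supported.2 hj⟩, by simp⟩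
      obtain ⟨P, hP⟩ := hle hg
      have hP' : Polynomial.aeval (X i : MvPolynomial ι ℂ) P = g := hP
      refine ⟨P, fun h => hg0 (by rw [← hP', h, map_zero]), ?_⟩
      have := Polynomial.aeval_algHom_apply (Ideal.Quotient.mkₐ (supported ℂ J) q) (X i) P
      rw [hP'] at this
      exact this.trans (Ideal.Quotient.eq_zero_iff_mem.2 hgq)
  refine ⟨fun b => ?_⟩
  obtain ⟨f, rfl⟩ := Ideal.Quotient.mk_surjective b
  induction f using MvPolynomial.induction_on with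
  | C a => exact isAlgebraic_algebraMap (R := supported ℂ J) (algebraMap ℂ _ a)
  | add p p' hp hp' => rw [map_add]; exact hp.add hp'
  | mul_X p i hp => rw [map_mul]; exact hp.mul (hX i)

/-- If `A / q` is algebraic over `ℂ[x_J]`, every `f ∉ q` divides a nonzero element of `ℂ[x_J]`
modulo `q`. -/
theorem alg_exists_mem {ι : Type*} [Fintype ι] [DecidableEq ι] (q : Ideal (MvPolynomial ι ℂ))
    (hqp : q.IsPrime) (J : Finset ι)
    (hJ : ∀ f ∈ supported ℂ (J : Set ι), f ∈ q → f = 0)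
    (halg : ∀ i, i ∉ J → ∃ g, g ≠ 0 ∧ g ∈ q ∧ g ∈ supported ℂ (insert i (J : Set ι)))
    (f : MvPolynomial ι ℂ) (hf : f ∉ q) :
    ∃ s ∈ supported ℂ (J : Set ι), s ≠ 0 ∧ ∃ u, s - f * u ∈ q := by
  have _ := hJ
  have hA := alg_isAlgebraic q (J : Set ι) halg
  obtain ⟨r, hr, b, hb⟩ := (hA.isAlgebraic (Ideal.Quotient.mk q f)).exists_nonzero_dvd
    (mem_nonZeroDivisors_of_ne_zero fun h => hf (Ideal.Quotient.eq_zero_iff_mem.1 h))
  obtain ⟨u, rfl⟩ := Ideal.Quotient.mk_surjective b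
  refine ⟨r, r.2, fun h => hr (Subtype.ext h), u, ?_⟩
  rw [← Ideal.Quotient.eq, map_mul]
  exact hb

/-- `A / q` has finite rank over `ℂ[x_J]`. -/
theorem alg_fin_rank {ι : Type*} [Fintype ι] [DecidableEq ι] (q : Ideal (MvPolynomial ι ℂ))
    (hqp : q.IsPrime) (J : Finset ι)
    (hJ : ∀ f ∈ supported ℂ (J : Set ι), f ∈ q → f = 0)
    (halg : ∀ i, i ∉ J → ∃ g, g ≠ 0 ∧ g ∈ q ∧ g ∈ supported ℂ (insert i (J : Set ι))) :
    ∃ T : Finset (MvPolynomial ι ℂ), ∀ g : MvPolynomial ι ℂ,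
      ∃ s : supported ℂ (J : Set ι), s ≠ 0 ∧
        ∃ p ∈ Submodule.span (supported ℂ (J : Set ι)) (T : Set (MvPolynomial ι ℂ)),
          s • g - p ∈ q := by
  classical
  have _ := hJ
  have _ := hqp
  have hA := alg_isAlgebraic q (J : Set ι) halg
  obtain ⟨r, hr, hint⟩ := Algebra.IsAlgebraic.exists_integral_multiples (supported ℂ (J : Set ι))
    (Finset.univ.image fun i => Ideal.Quotient.mk q (X i : MvPolynomial ι ℂ))
  let M := Algebra.adjoin (supported ℂ (J : Set ι))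
    (Set.range fun i => r • Ideal.Quotient.mk q (X i : MvPolynomial ι ℂ))
  have hM : M.toSubmodule.FG := fg_adjoin_of_finite (Set.finite_range _) (by
    rintro _ ⟨i, rfl⟩
    exact hint _ (Finset.mem_image_of_mem _ (Finset.mem_univ i)))
  have hN : ∀ g : MvPolynomial ι ℂ, ∃ N : ℕ, r ^ N • Ideal.Quotient.mk q g ∈ M := fun g => by
    induction g using MvPolynomial.induction_on with
    | C a => exact ⟨0, by
        rw [pow_zero, one_smul]
        exact M.algebraMap_mem (algebraMap ℂ _ a)⟩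
    | add p p' hp hp' =>
      obtain ⟨N, hN⟩ := hp
      obtain ⟨N', hN'⟩ := hp'
      refine ⟨N + N', ?_⟩
      rw [map_add, smul_add]
      refine add_mem ?_ ?_
      · rw [add_comm, pow_add, mul_smul]; exact M.smul_mem hN _
      · rw [pow_add, mul_smul]; exact M.smul_mem hN' _
    | mul_X p i hp =>
      obtain ⟨N, hN⟩ := hp
      refine ⟨N + 1, ?_⟩
      rw [map_mul, pow_succ, ← smul_mul_smul_comm]
      exact mul_mem hN (Algebra.subset_adjoin ⟨i, rfl⟩)
  obtain ⟨T', hT'⟩ := hM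
  choose l hl using (Ideal.Quotient.mk_surjective (I := q))
  refine ⟨T'.image l, fun g => ?_⟩
  obtain ⟨N, hg⟩ := hN g
  have e : (Submodule.span (supported ℂ (J : Set ι))
      ((T'.image l : Finset _) : Set (MvPolynomial ι ℂ))).map
        (Ideal.Quotient.mkₐ (supported ℂ (J : Set ι)) q).toLinearMap = M.toSubmodule := by
    rw [Submodule.map_span, ← hT', Finset.coe_image, Set.image_image]
    congr 1
    simp [hl]
  have hg' : r ^ N • Ideal.Quotient.mk q g ∈ M.toSubmodule := hg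
  rw [← e] at hg'
  obtain ⟨p, hp, hpe⟩ := hg'
  refine ⟨r ^ N, pow_ne_zero N hr, p, hp, ?_⟩
  rw [← Ideal.Quotient.eq]
  exact (map_smul (Ideal.Quotient.mkₐ (supported ℂ (J : Set ι)) q) _ _).trans hpe.symm

end Crest.Agent.R11
end

-- ▼ part PVc/R11/Bezout
section

set_option autoImplicit false

namespace Crest.Agent.R11
open MvPolynomial

/-- Every polynomial of weighted degree `≤ n` is a `ℂ[x_J]`-combination of monomials in the
remaining variables of weight `≤ n`. -/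
theorem bez_Deg_le_span {ι : Type*} [Fintype ι] [DecidableEq ι] (J : Finset ι) (ω : ι → ℕ) (n : ℕ)
    (f : MvPolynomial ι ℂ) (hf : f ∈ Deg ω n) :
    f ∈ Submodule.span (supported ℂ (J : Set ι))
      ((fun b : {i // i ∉ J} →₀ ℕ => ∏ i : {i // i ∉ J}, (X i.1 : MvPolynomial ι ℂ) ^ b i) ''
        {b | Finsupp.weight (fun i : {i // i ∉ J} => ω i) b ≤ n}) := by
  rw [f.as_sum]
  refine Submodule.sum_mem _ fun d hd => ?_
  have hw := mem_Deg.1 hf d (mem_support_iff.1 hd)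
  have hmem : (C (coeff d f) * ∏ i : {i // i ∈ J}, (X i.1 : MvPolynomial ι ℂ) ^ d i) ∈
      supported ℂ (J : Set ι) := by
    refine Subalgebra.mul_mem _ (Subalgebra.algebraMap_mem _ _) (Subalgebra.prod_mem _ fun i _ => ?_)
    exact Subalgebra.pow_mem _ (X_mem_supported.2 i.2) _
  have heq : monomial d (coeff d f) =
      (⟨_, hmem⟩ : supported ℂ (J : Set ι)) •
        ∏ i : {i // i ∉ J}, (X i.1 : MvPolynomial ι ℂ) ^ d i := by
    rw [Subalgebra.smul_def, smul_eq_mul, monomial_eq, Finsupp.prod_fintype _ _ (by simp),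
      ← Fintype.prod_subtype_mul_prod_subtype (fun i => i ∈ J), ← mul_assoc]
    congr 2
    exact Finset.prod_congr (by convert rfl) (fun _ _ => rfl)
  rw [heq]
  refine Submodule.smul_mem _ _ (Submodule.subset_span
    ⟨Finsupp.equivFunOnFinite.symm (fun i => d i), ?_, by simp⟩)
  rw [Set.mem_ofPred_eq, weight_eq_sum]
  rw [weight_eq_sum, ← Fintype.sum_subtype_add_sum_subtype (fun i => i ∈ J)] at hw
  simp only [Finsupp.equivFunOnFinite_symm_apply_apply]
  omega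

theorem bez_pow_mem_FQ {A ι : Type*} [CommRing A] [Algebra ℂ A] (D : ι → Derivation ℂ A A)
    {v : ι → ℕ} (hv : ∀ i, 0 < v i) {q : Ideal A} {r : A} (hr : r ∈ q) (t : ℕ) :
    r ^ t ∈ FQ D v q t := by
  induction t with
  | zero => exact FQ_zero D v q _
  | succ t ih => rw [pow_succ]; exact FQ_mul ih (FQ_one D hv hr)

/-- The asymptotic surjectivity for the zero ideal. -/
theorem bez_surjC {ι : Type*} [Fintype ι] [DecidableEq ι]
    (D : ι → Derivation ℂ (MvPolynomial ι ℂ) (MvPolynomial ι ℂ)) (v ω : ι → ℕ)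
    (hv : ∀ i, 0 < v i)
    (q : Ideal (MvPolynomial ι ℂ)) (hqp : q.IsPrime) (J : Finset ι)
    (hJ : ∀ f ∈ supported ℂ (J : Set ι), f ∈ q → f = 0)
    (halg : ∀ i, i ∉ J → ∃ g, g ≠ 0 ∧ g ∈ q ∧ g ∈ supported ℂ (insert i (J : Set ι)))
    (G : Set (MvPolynomial ι ℂ)) (R η : ℕ) (hR : 0 < R) (hη : 0 < η)
    (hG : ∀ g ∈ G, g ∈ Deg ω R ∧ g ∈ FQ D v q η) (hmin : q ∈ (Ideal.span G).minimalPrimes) :
    SurjC (fun n => Submodule.span (supported ℂ (J : Set ι)) (Deg ω n : Set (MvPolynomial ι ℂ)))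
      (FQ D v q) ((η : ℝ) / R) ⊥ := by
  have hR' : (0 : ℝ) < R := by exact_mod_cast hR
  have hη' : (0 : ℝ) < η := by exact_mod_cast hη
  refine surj _ _ _ (div_pos hη' hR') (fun a b hab => Submodule.span_mono (Deg_mono ω hab)) ?_
    (fun f => ?_) (FQ_anti D v q) (fun s t f g hf hg => FQ_mul hf hg) ?_ ⊥
  · intro a b f g hf hg
    have := Submodule.mul_mem_mul hf hg
    rw [Submodule.span_mul_span] at this
    refine Submodule.span_mono ?_ this
    rintro _ ⟨f', hf', g', hg', rfl⟩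
    exact Deg_mul hf' hg'
  · obtain ⟨n, hn⟩ := Deg_exists ω f
    exact ⟨n, Submodule.subset_span hn⟩
  · intro p hp
    by_cases hGp : ∃ g ∈ G, g ∉ p
    · obtain ⟨g, hg, hgp⟩ := hGp
      refine Or.inr ⟨g, R, η, hgp, Submodule.subset_span (hG g hg).1, (hG g hg).2, ?_, hη⟩
      rw [div_mul_cancel₀ _ hR'.ne']
    push Not at hGp
    left
    by_cases hpq : p ≤ q
    · have hqle : q ≤ p := hmin.2 ⟨hp, Ideal.span_le.2 hGp⟩ hpq
      obtain ⟨T, hT⟩ := alg_fin_rank q hqp J hJ halg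
      choose nn hnn using Deg_exists ω
      intro x' _
      refine ⟨T.sup nn, fun n hn t _ g => ?_⟩
      obtain ⟨s, hs, p₀, hp₀, hsp⟩ := hT g
      refine ⟨s, hs, p₀, Submodule.span_mono (fun f hf => ?_) hp₀, s • g - p₀, hqle hsp, 0,
        Submodule.zero_mem _, by ring⟩
      exact Deg_mono ω ((Finset.le_sup hf).trans hn) (hnn f)
    · obtain ⟨f, hfp, hfq⟩ := SetLike.not_le_iff_exists.1 hpq
      obtain ⟨s, hsJ, hs0, u, hu⟩ := alg_exists_mem q hqp J hJ halg f hfq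
      intro x' _
      refine ⟨0, fun n _ t _ g => ?_⟩
      obtain ⟨c, hc⟩ := sub_dvd_pow_sub_pow s (s - f * u) t
      refine ⟨(⟨s, hsJ⟩ : supported ℂ (J : Set ι)) ^ t, pow_ne_zero _ (fun h => hs0 ?_), 0,
        Submodule.zero_mem _, (s ^ t - (s - f * u) ^ t) * g, ?_, (s - f * u) ^ t * g,
        Ideal.mul_mem_right _ _ (bez_pow_mem_FQ D hv hu t), ?_⟩
      · exact congrArg Subtype.val h
      · rw [hc, sub_sub_cancel, mul_assoc, mul_assoc]
        exact Ideal.mul_mem_right _ _ hfp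
      · change s ^ t * g = _
        ring

/-- Counting consequence of the asymptotic surjectivity. -/
theorem bez_count {ι : Type*} [Fintype ι] [DecidableEq ι]
    (D : ι → Derivation ℂ (MvPolynomial ι ℂ) (MvPolynomial ι ℂ)) (v ω : ι → ℕ)
    (hv : ∀ i, 0 < v i) (hω : ∀ i, 0 < ω i)
    (q : Ideal (MvPolynomial ι ℂ)) (hqp : q.IsPrime) (J : Finset ι)
    (hJ : ∀ f ∈ supported ℂ (J : Set ι), f ∈ q → f = 0)
    (h : {i // i ∉ J} → MvPolynomial ι ℂ) (hq : ∀ i, h i ∈ q) (σ : {i // i ∉ J} → ι)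
    (s : MvPolynomial ι ℂ) (hs : s ∉ q)
    (hD : ∀ i i', D (σ i') (h i) - (if i = i' then s else 0) ∈ q) (n t : ℕ)
    (hsurj : ∀ g : MvPolynomial ι ℂ, ∃ s : supported ℂ (J : Set ι), s ≠ 0 ∧
      ∃ p ∈ Submodule.span (supported ℂ (J : Set ι)) (Deg ω n : Set (MvPolynomial ι ℂ)),
        ∃ u ∈ (⊥ : Ideal (MvPolynomial ι ℂ)), ∃ φ ∈ FQ D v q (t + 1), s • g = p + u + φ) :
    cnt (fun i => v (σ i)) t ≤ cnt (fun i : {i // i ∉ J} => ω i) n := by
  classical
  choose sg hsg pg hpg ug hug φ hφ heq using hsurj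
  set S := (cnt_finite (w := fun i => v (σ i)) (fun i => hv _) t).toFinset with hS
  set W := (cnt_finite (w := fun i : {i // i ∉ J} => ω i) (fun i => hω _) n).toFinset with hW
  set mon : ({i // i ∉ J} →₀ ℕ) → MvPolynomial ι ℂ := fun α => ∏ i, h i ^ α i with hmon
  set e : ({i // i ∉ J} →₀ ℕ) → MvPolynomial ι ℂ :=
    fun b => ∏ i : {i // i ∉ J}, (X i.1 : MvPolynomial ι ℂ) ^ b i with he
  have hli : LinearIndependent (supported ℂ (J : Set ι)) (fun α : S => pg (mon α)) := by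
    rw [Fintype.linearIndependent_iff]
    intro c hc
    set a : ({i // i ∉ J} →₀ ℕ) → MvPolynomial ι ℂ :=
      fun α => if hα : α ∈ S then ((c ⟨α, hα⟩ * sg (mon α) : supported ℂ (J : Set ι)) :
        MvPolynomial ι ℂ) else 0 with ha
    have key := indep_FQ D v q hqp h hq σ s hs hD (t + 1) S (fun α hα => by
      have := (Set.Finite.mem_toFinset _).1 hα
      rw [Set.mem_ofPred_eq] at this
      omega) a ?_ ?_
    · intro α
      have h1 := key α.1 α.2
      simp only [ha, dif_pos α.2] at h1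
      have h2 : c α * sg (mon α) = 0 := Subtype.ext h1
      exact (mul_eq_zero.1 h2).resolve_right (hsg _)
    · have h1 : ∑ α ∈ S, a α * ∏ i, h i ^ α i =
          ∑ α : S, c α • pg (mon α) + ∑ α : S, c α • φ (mon α) := by
        rw [← Finset.sum_add_distrib, ← Finset.sum_coe_sort S]
        refine Finset.sum_congr rfl fun α _ => ?_
        have h2 := heq (mon α)
        rw [(Submodule.mem_bot _).1 (hug (mon α)), add_zero] at h2
        rw [← smul_add, ← h2, smul_smul]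
        simp only [ha, dif_pos α.2]
        rfl
      rw [h1, hc, zero_add]
      exact Ideal.sum_mem _ fun α _ => Ideal.mul_mem_left _ _ (hφ _)
    · intro α hα hq'
      simp only [ha, dif_pos hα] at hq' ⊢
      exact hJ _ (Subtype.property _) hq'
  have hspan : Set.range (fun α : S => pg (mon α)) ≤
      (Submodule.span (supported ℂ (J : Set ι))
        ((W.image e : Finset (MvPolynomial ι ℂ)) : Set (MvPolynomial ι ℂ)) :
          Submodule (supported ℂ (J : Set ι)) (MvPolynomial ι ℂ)) := by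
    rintro _ ⟨α, rfl⟩
    refine (Submodule.span_le.2 (fun f hf => ?_) : Submodule.span _ _ ≤ _) (hpg (mon α))
    have := bez_Deg_le_span J ω n f hf
    rw [Finset.coe_image, hW, Set.Finite.coe_toFinset]
    exact this
  have h1 := linearIndependent_le_span_aux' _ hli _ hspan
  simp only [Fintype.card_coe, Finset.coe_sort_coe] at h1
  rw [cnt, cnt, Set.ncard_eq_toFinset_card _ (cnt_finite (w := fun i => v (σ i)) (fun i => hv _) t),
    Set.ncard_eq_toFinset_card _ (cnt_finite (w := fun i : {i // i ∉ J} => ω i) (fun i => hω _) n)]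
  exact h1.trans Finset.card_image_le

/-- The limiting argument. -/
theorem bez_limit (d a b c R η : ℕ) (hR : 0 < R) (hη : 0 < η)
    (H : ∀ x' : ℝ, x' < (η : ℝ) / R → ∃ N : ℕ, ∀ n : ℕ, N ≤ n → ∀ t : ℕ,
      ((t + 1 : ℕ) : ℝ) ≤ x' * n → (t + 1) ^ d * a ≤ (n + c) ^ d * b) :
    η ^ d * a ≤ R ^ d * b := by
  have hR' : (0 : ℝ) < R := by exact_mod_cast hR
  have hη' : (0 : ℝ) < η := by exact_mod_cast hη
  have key : ∀ ε : ℝ, 0 < ε → ε < η / 2 →
      ((η : ℝ) - 2 * ε) ^ d * a ≤ ((R : ℝ) + ε) ^ d * b := by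
    intro ε hε hε2
    obtain ⟨N, hN⟩ := H ((η - ε) / R) (by gcongr; linarith)
    obtain ⟨k, hk⟩ := exists_nat_ge (max (N : ℝ) (max (1 / ε) (c / ε)))
    have hk1 : (N : ℝ) ≤ k := (le_max_left _ _).trans hk
    have hk2 : 1 / ε ≤ k := ((le_max_left _ _).trans (le_max_right _ _)).trans hk
    have hk3 : c / ε ≤ k := ((le_max_right _ _).trans (le_max_right _ _)).trans hk
    rw [div_le_iff₀ hε] at hk2 hk3
    have hkpos : (0 : ℝ) < k := by
      by_contra hk0
      have : (k : ℝ) * ε ≤ 0 := mul_nonpos_of_nonpos_of_nonneg (not_lt.1 hk0) hε.le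
      linarith
    have hfl : 1 ≤ ⌊((η : ℝ) - ε) * k⌋₊ := by
      rw [Nat.one_le_floor_iff]
      nlinarith
    obtain ⟨t, ht⟩ : ∃ t, ⌊((η : ℝ) - ε) * k⌋₊ = t + 1 := ⟨_, (Nat.sub_add_cancel hfl).symm⟩
    have h0 : (0 : ℝ) ≤ (η - ε) * k := mul_nonneg (by linarith) hkpos.le
    have h1 : ((t + 1 : ℕ) : ℝ) ≤ (η - ε) * k := ht ▸ Nat.floor_le h0
    have h2 : (η - ε) * k < ((t + 1 : ℕ) : ℝ) + 1 := ht ▸ Nat.lt_floor_add_one _
    have hNle : N ≤ R * k := by
      have : N ≤ k := by exact_mod_cast hk1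
      exact this.trans (Nat.le_mul_of_pos_left _ hR)
    have h3 := hN (R * k) hNle t (by
      rw [Nat.cast_mul, ← mul_assoc, div_mul_cancel₀ _ hR'.ne']; exact h1)
    have h4 : (((t + 1 : ℕ) : ℝ)) ^ d * a ≤ ((R : ℝ) * k + c) ^ d * b := by exact_mod_cast h3
    have h5 : (((η : ℝ) - 2 * ε) * k) ^ d * a ≤ (((R : ℝ) + ε) * k) ^ d * b := by
      refine le_trans ?_ (h4.trans ?_)
      · gcongr
        · exact mul_nonneg (by linarith) hkpos.le
        · nlinarith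
      · gcongr
        nlinarith
    rw [mul_pow, mul_pow, mul_right_comm, mul_right_comm (((R : ℝ) + ε) ^ d)] at h5
    exact le_of_mul_le_mul_right h5 (pow_pos hkpos d)
  have t1 : Filter.Tendsto (fun ε : ℝ => ((η : ℝ) - 2 * ε) ^ d * a) (nhdsWithin 0 (Set.Ioi 0))
      (nhds (((η : ℝ) - 2 * 0) ^ d * a)) :=
    (Continuous.tendsto (by fun_prop) 0).mono_left nhdsWithin_le_nhds
  have t2 : Filter.Tendsto (fun ε : ℝ => ((R : ℝ) + ε) ^ d * b) (nhdsWithin 0 (Set.Ioi 0))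
      (nhds (((R : ℝ) + 0) ^ d * b)) :=
    (Continuous.tendsto (by fun_prop) 0).mono_left nhdsWithin_le_nhds
  have h := le_of_tendsto_of_tendsto t1 t2 (by
    filter_upwards [Ioo_mem_nhdsGT (show (0 : ℝ) < η / 2 by linarith)] with ε hε
    exact key ε hε.1 hε.2)
  simp only [mul_zero, sub_zero, add_zero] at h
  exact_mod_cast h

/-- The Bezout-type inequality for a prime `q` minimal over polynomials of weighted degree `≤ R`
which vanish along `q` to order `η`. -/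
theorem bezout {ι : Type*} [Fintype ι] [DecidableEq ι]
    (D : ι → Derivation ℂ (MvPolynomial ι ℂ) (MvPolynomial ι ℂ)) (v ω : ι → ℕ)
    (hv : ∀ i, 0 < v i) (hω : ∀ i, 0 < ω i)
    (q : Ideal (MvPolynomial ι ℂ)) (hqp : q.IsPrime) (J : Finset ι)
    (hJ : ∀ f ∈ supported ℂ (J : Set ι), f ∈ q → f = 0)
    (halg : ∀ i, i ∉ J → ∃ g, g ≠ 0 ∧ g ∈ q ∧ g ∈ supported ℂ (insert i (J : Set ι)))
    (G : Set (MvPolynomial ι ℂ)) (R η : ℕ) (hR : 0 < R) (hη : 0 < η)
    (hG : ∀ g ∈ G, g ∈ Deg ω R ∧ g ∈ FQ D v q η) (hmin : q ∈ (Ideal.span G).minimalPrimes)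
    (h : {i // i ∉ J} → MvPolynomial ι ℂ) (hq : ∀ i, h i ∈ q) (σ : {i // i ∉ J} → ι)
    (s : MvPolynomial ι ℂ) (hs : s ∉ q)
    (hD : ∀ i i', D (σ i') (h i) - (if i = i' then s else 0) ∈ q) :
    η ^ Fintype.card {i // i ∉ J} * ∏ i : {i // i ∉ J}, ω i ≤
      R ^ Fintype.card {i // i ∉ J} * ∏ i : {i // i ∉ J}, v (σ i) := by
  have hS := bez_surjC D v ω hv q hqp J hJ halg G R η hR hη hG hmin
  refine bez_limit _ _ _ (∑ i : {i // i ∉ J}, ω i) R η hR hη fun x' hx' => ?_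
  obtain ⟨N, hN⟩ := hS x' hx'
  refine ⟨N, fun n hn t ht => ?_⟩
  have h1 := bez_count D v ω hv hω q hqp J hJ h hq σ s hs hD n t (hN n hn (t + 1) ht)
  have h2 := cnt_lower (w := fun i : {i // i ∉ J} => v (σ i)) (fun i => hv _) t
  have h3 := cnt_upper (w := fun i : {i // i ∉ J} => ω i) (fun i => hω _) n
  calc (t + 1) ^ Fintype.card {i // i ∉ J} * ∏ i : {i // i ∉ J}, ω i
      ≤ ((Fintype.card {i // i ∉ J}).factorial * (∏ i : {i // i ∉ J}, v (σ i)) *
          cnt (fun i : {i // i ∉ J} => ω i) n) * ∏ i : {i // i ∉ J}, ω i :=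
        Nat.mul_le_mul_right _ (h2.trans (Nat.mul_le_mul_left _ h1))
    _ = ((Fintype.card {i // i ∉ J}).factorial * (∏ i : {i // i ∉ J}, ω i) *
          cnt (fun i : {i // i ∉ J} => ω i) n) * ∏ i : {i // i ∉ J}, v (σ i) := by ring
    _ ≤ _ := Nat.mul_le_mul_right _ h3

end Crest.Agent.R11
end

-- ▼ part PVc/R11/Chain
section

set_option autoImplicit false

namespace Crest.Agent.R11
open MvPolynomial

/-- Pigeonhole on a chain of minimal primes (Krull dimension of `ℂ[X_1..X_n]` is `n`). -/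
theorem chain {n : ℕ} (a : ℕ → Ideal (MvPolynomial (Fin n) ℂ)) (hmono : Monotone a)
    (h0 : a 0 ≠ ⊥) (p : Ideal (MvPolynomial (Fin n) ℂ)) (hp : p.IsPrime) (hap : a n ≤ p) :
    ∃ j, j < n ∧ ∃ q ∈ (a j).minimalPrimes, a (j + 1) ≤ q ∧ q ≤ p := by
  by_contra hcon
  push Not at hcon
  have key : ∀ j : ℕ, j ≤ n → ∀ P : Ideal (MvPolynomial (Fin n) ℂ), P.IsPrime → a j ≤ P → P ≤ p →
      ((j + 1 : ℕ) : ℕ∞) ≤ P.height := by
    intro j
    induction j with
    | zero =>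
      intro _ P hP h1 _
      have hlt : (⊥ : Ideal (MvPolynomial (Fin n) ℂ)) < P :=
        bot_lt_iff_ne_bot.2 fun h => h0 (le_bot_iff.1 (h ▸ h1))
      have := Ideal.isPrime_bot (α := MvPolynomial (Fin n) ℂ)
      simpa using Ideal.height_add_one_le_of_lt_of_isPrime hlt
    | succ j ih =>
      intro hj P hP h1 h2
      obtain ⟨q, hq, hqP⟩ := Ideal.exists_minimalPrimes_le ((hmono (Nat.le_succ j)).trans h1)
      have := hq.isPrime
      have hlt : q < P := lt_of_le_of_ne hqP fun h =>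
        hcon j hj q hq (h ▸ h1) (hqP.trans h2)
      have h3 := ih (Nat.le_of_succ_le hj) q hq.isPrime hq.1.2 (hqP.trans h2)
      refine le_trans ?_ (Ideal.height_add_one_le_of_lt_of_isPrime hlt)
      rw [Nat.cast_succ]
      exact add_le_add_left h3 1
  have h1 := key n le_rfl p hp hap le_rfl
  have h2 : (p.height : WithBot ℕ∞) ≤ ringKrullDim (MvPolynomial (Fin n) ℂ) :=
    Ideal.height_le_ringKrullDim_of_isPrime
  rw [MvPolynomial.ringKrullDim_of_isNoetherianRing, ringKrullDim_eq_zero_of_field, zero_add,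
    Nat.card_eq_fintype_card, Fintype.card_fin] at h2
  have h3 : p.height ≤ (n : ℕ∞) := by exact_mod_cast h2
  have h4 : n + 1 ≤ n := by exact_mod_cast h1.trans h3
  omega

/-- Dual system from a triangular matrix of derivatives (adjugate). -/
theorem exists_dual {A κ : Type*} [CommRing A] [Algebra ℂ A] [Fintype κ] [DecidableEq κ]
    (q : Ideal A) (hqp : q.IsPrime) (E : κ → Derivation ℂ A A) (g : κ → A) (hg : ∀ i, g i ∈ q)
    (r : κ → ℕ) (htri : ∀ i' i'', i' ≠ i'' → r i'' ≤ r i' → E i' (g i'') ∈ q)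
    (hdiag : ∀ i, E i (g i) ∉ q) :
    ∃ (h : κ → A) (s : A), s ∉ q ∧ (∀ i, h i ∈ q) ∧
      ∀ i i', E i' (h i) - (if i = i' then s else 0) ∈ q := by
  set M : Matrix κ κ A := Matrix.of fun i' i'' => E i' (g i'') with hM
  refine ⟨fun i => ∑ i'', M.adjugate i'' i * g i'', M.det, ?_,
    fun i => q.sum_mem fun i'' _ => q.mul_mem_left _ (hg i''), fun i i' => ?_⟩
  · rw [← Ideal.Quotient.eq_zero_iff_mem, RingHom.map_det, Matrix.det_apply,
      Finset.sum_eq_single 1]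
    · simp only [Equiv.Perm.sign_one, one_smul, Equiv.Perm.coe_one, id]
      refine Finset.prod_ne_zero_iff.2 fun i _ h => hdiag i ?_
      exact Ideal.Quotient.eq_zero_iff_mem.1 h
    · intro σ _ hσ
      have : ∃ i, σ i ≠ i ∧ r i ≤ r (σ i) := by
        by_contra hc
        push Not at hc
        obtain ⟨i₀, hi₀⟩ : ∃ i, σ i ≠ i := by
          by_contra h'
          push Not at h'
          exact hσ (Equiv.ext h')
        have hlt : ∑ i, r (σ i) < ∑ i, r i := by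
          refine Finset.sum_lt_sum (fun i _ => ?_) ⟨i₀, Finset.mem_univ _, hc i₀ hi₀⟩
          by_cases h : σ i = i
          · rw [h]
          · exact (hc i h).le
        rw [Equiv.sum_comp σ r] at hlt
        exact lt_irrefl _ hlt
      obtain ⟨i, h1, h2⟩ := this
      rw [Finset.prod_eq_zero (Finset.mem_univ i), smul_zero]
      exact Ideal.Quotient.eq_zero_iff_mem.2 (htri _ _ h1 h2)
    · intro h
      exact absurd (Finset.mem_univ _) h
  · have h1 : (if i = i' then M.det else 0) = ∑ i'', M i' i'' * M.adjugate i'' i := by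
      rw [← Matrix.mul_apply, Matrix.mul_adjugate, Matrix.smul_apply, Matrix.one_apply]
      by_cases h : i = i'
      · simp [h]
      · simp [h, Ne.symm h]
    rw [h1, map_sum, ← Finset.sum_sub_distrib]
    refine q.sum_mem fun i'' _ => ?_
    rw [Derivation.leibniz, smul_eq_mul, smul_eq_mul, hM, Matrix.of_apply, mul_comm (E i' (g i'')),
      add_sub_cancel_left]
    exact q.mul_mem_right _ (hg i'')

end Crest.Agent.R11
end

-- ▼ part PVc/R11/MinG
section

set_option autoImplicit false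

namespace Crest.Agent.R11
open MvPolynomial

namespace MinG

theorem mem_supported_iff {σ : Type*} {S : Set σ} {g : MvPolynomial σ ℂ} :
    g ∈ supported ℂ S ↔ ∀ d, coeff d g ≠ 0 → ∀ i, d i ≠ 0 → i ∈ S := by
  rw [mem_supported]
  constructor
  · intro h d hd i hi
    exact h (Finset.mem_coe.2 ((mem_vars_iff_mem_support i).2
      ⟨d, mem_support_iff.2 hd, Finsupp.mem_support_iff.2 hi⟩))
  · intro h i hi
    obtain ⟨d, hd, hi⟩ := (mem_vars_iff_mem_support i).1 (Finset.mem_coe.1 hi)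
    exact h d (mem_support_iff.1 hd) i (Finsupp.mem_support_iff.1 hi)

theorem sub_add_single {σ : Type*} {d : σ →₀ ℕ} {l : σ} (h : d l ≠ 0) :
    d - Finsupp.single l 1 + Finsupp.single l 1 = d :=
  tsub_add_cancel_of_le (by simpa [Finsupp.single_le_iff, Nat.one_le_iff_ne_zero] using h)

theorem pderiv_eq_zero_iff {σ : Type*} {g : MvPolynomial σ ℂ} {l : σ} :
    pderiv l g = 0 ↔ ∀ d, coeff d g ≠ 0 → d l = 0 := by
  constructor
  · intro h d hd
    by_contra hl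
    have := congrArg (coeff (d - Finsupp.single l 1)) h
    rw [coeff_pderiv, sub_add_single hl, coeff_zero] at this
    exact mul_ne_zero hd (Nat.cast_add_one_ne_zero _) this
  · intro h
    ext d
    rw [coeff_pderiv, coeff_zero]
    by_contra hne
    have := h _ (left_ne_zero_of_mul hne)
    simp at this

theorem coeff_X_mul_pderiv {σ : Type*} (g : MvPolynomial σ ℂ) (l : σ) (d : σ →₀ ℕ) :
    coeff d (X l * pderiv l g) = d l * coeff d g := by
  classical
  rw [coeff_X_mul']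
  split_ifs with h
  · have h' := Finsupp.mem_support_iff.1 h
    rw [coeff_pderiv, sub_add_single h', mul_comm]
    congr 1
    have : (d - Finsupp.single l 1 : σ →₀ ℕ) l + 1 = d l := by
      simp only [Finsupp.coe_tsub, Pi.sub_apply, Finsupp.single_eq_same]
      omega
    exact_mod_cast this
  · rw [Finsupp.notMem_support_iff.1 h]; simp

theorem coeff_delta {m : ℕ} (Q : Fin m → ℂ) (g : MvPolynomial (Fin (m + 1)) ℂ)
    (d : Fin (m + 1) →₀ ℕ) : coeff d (delta Q g) =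
      d 0 * coeff d g + ∑ i : Fin m, Q i * coeff d (pderiv i.succ g) := by
  rw [delta_apply, coeff_add, coeff_X_mul_pderiv, coeff_sum]
  simp only [coeff_C_mul]

end MinG

open MinG

/-- Greedy choice of a transcendence basis among the variables modulo `q`. -/
theorem greedy {n : ℕ} (q : Ideal (MvPolynomial (Fin n) ℂ)) (hq : q ≠ ⊤) :
    ∃ J : Finset (Fin n), (∀ f ∈ supported ℂ (J : Set (Fin n)), f ∈ q → f = 0) ∧
      ∀ i, i ∉ J → ∃ g, g ≠ 0 ∧ g ∈ q ∧ g ∈ supported ℂ (insert i {j | j ∈ J ∧ j < i}) := by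
  have key : ∀ k : ℕ, ∃ J : Finset (Fin n), (∀ j ∈ J, j.val < k) ∧
      (∀ f ∈ supported ℂ (J : Set (Fin n)), f ∈ q → f = 0) ∧
      ∀ i : Fin n, i.val < k → i ∉ J →
        ∃ g, g ≠ 0 ∧ g ∈ q ∧ g ∈ supported ℂ (insert i {j | j ∈ J ∧ j < i}) := by
    intro k
    induction k with
    | zero =>
      refine ⟨∅, by simp, fun f hf hfq => ?_, fun i hi => absurd hi (Nat.not_lt_zero _)⟩
      rw [Finset.coe_empty, supported_empty, Algebra.mem_bot] at hf
      obtain ⟨c, rfl⟩ := hf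
      by_contra hc
      have hc' : c ≠ 0 := by rintro rfl; exact hc (map_zero _)
      exact hq (q.eq_top_of_isUnit_mem hfq ((IsUnit.mk0 c hc').map _))
    | succ k ih =>
      obtain ⟨J, h1, h2, h3⟩ := ih
      by_cases hk : k < n
      · obtain ⟨J', hJ'⟩ : ∃ J' : Finset (Fin n), ∀ j, j ∈ J' ↔ j = ⟨k, hk⟩ ∨ j ∈ J :=
          ⟨insert ⟨k, hk⟩ J, fun j => Finset.mem_insert⟩
        rcases Classical.em (∀ f ∈ supported ℂ (J' : Set (Fin n)), f ∈ q → f = 0) with hI | hI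
        · refine ⟨J', fun j hj => ?_, hI, fun i hi hiJ => ?_⟩
          · rcases (hJ' j).1 hj with rfl | hj
            · exact Nat.lt_succ_self k
            · exact (h1 j hj).trans (Nat.lt_succ_self k)
          · rw [hJ', not_or] at hiJ
            have hik : i.val < k := by
              have : i.val ≠ k := fun h => hiJ.1 (Fin.ext h)
              omega
            obtain ⟨g, g0, gq, gs⟩ := h3 i hik hiJ.2
            refine ⟨g, g0, gq, supported_mono (Set.insert_subset_insert fun j hj => ?_) gs⟩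
            exact ⟨(hJ' j).2 (Or.inr hj.1), hj.2⟩
        · refine ⟨J, fun j hj => (h1 j hj).trans (Nat.lt_succ_self k), h2, fun i hi hiJ => ?_⟩
          by_cases hik : i.val < k
          · exact h3 i hik hiJ
          · have hi' : i = ⟨k, hk⟩ := Fin.ext (by simp only; omega)
            subst hi'
            push Not at hI
            obtain ⟨g, gs, gq, g0⟩ := hI
            refine ⟨g, g0, gq, supported_mono (fun j hj => ?_) gs⟩
            exact ((hJ' j).1 hj).imp id fun hj => ⟨hj, h1 j hj⟩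
      · exact ⟨J, fun j hj => (h1 j hj).trans (Nat.lt_succ_self k), h2,
          fun i _ hiJ => h3 i (by have := i.2; omega) hiJ⟩
  obtain ⟨J, -, h2, h3⟩ := key n
  exact ⟨J, h2, fun i hi => h3 i i.2 hi⟩

/-- A nonzero element of `q ∩ ℂ[x_S]` with minimal leading monomial. -/
theorem minG {m : ℕ} (Q : Fin m → ℂ) (q : Ideal (MvPolynomial (Fin (m + 1)) ℂ))
    (S : Set (Fin (m + 1))) (hne : ∃ g, g ≠ 0 ∧ g ∈ q ∧ g ∈ supported ℂ S) :
    ∃ g, g ≠ 0 ∧ g ∈ q ∧ g ∈ supported ℂ S ∧ (∀ l, pderiv l g ∈ q → pderiv l g = 0) ∧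
      (delta Q g ∈ q → ∃ c : ℂ, delta Q g = C c * g) := by
  let mo : MonomialOrder (Fin (m + 1)) := MonomialOrder.lex
  obtain ⟨g, ⟨g0, gq, gs⟩, hmin⟩ :=
    (InvImage.wf (fun g : MvPolynomial (Fin (m + 1)) ℂ => mo.toSyn (mo.degree g))
      (wellFounded_lt (α := mo.syn))).has_min {g | g ≠ 0 ∧ g ∈ q ∧ g ∈ supported ℂ S} hne
  -- an element all of whose monomials are smaller vanishes
  have hsmall : ∀ h ∈ q, (∀ d, coeff d h ≠ 0 → (coeff d g ≠ 0 ∧ d ≠ mo.degree g) ∨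
      ∃ l, coeff (d + Finsupp.single l 1) g ≠ 0) → h = 0 := by
    intro h hq hd
    by_contra h0
    refine hmin h ⟨h0, hq, mem_supported_iff.2 fun d hd' i hi => ?_⟩ ?_
    · rcases hd d hd' with h1 | ⟨l, h1⟩
      · exact mem_supported_iff.1 gs d h1.1 i hi
      · refine mem_supported_iff.1 gs _ h1 i ?_
        rw [Finsupp.add_apply]; omega
    · change mo.toSyn (mo.degree h) < mo.toSyn (mo.degree g)
      rcases hd _ (mo.coeff_degree_ne_zero_iff.2 h0) with h1 | ⟨l, h1⟩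
      · exact lt_of_le_of_ne (mo.le_degree (mem_support_iff.2 h1.1))
          fun e => h1.2 (mo.toSyn.injective e)
      · refine lt_of_lt_of_le (mo.toSyn_strictMono ?_) (mo.le_degree (mem_support_iff.2 h1))
        exact lt_add_of_pos_right _ (pos_iff_ne_zero.2 (Finsupp.single_ne_zero.2 one_ne_zero))
  refine ⟨g, g0, gq, gs, fun l hl => hsmall _ hl fun d hd => Or.inr ⟨l, ?_⟩, fun hδ =>
    ⟨(mo.degree g 0 : ℂ), sub_eq_zero.1 (hsmall _ (q.sub_mem hδ (q.mul_mem_left _ gq))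
      fun d hd => ?_)⟩⟩
  · rw [coeff_pderiv] at hd
    exact left_ne_zero_of_mul hd
  · rw [coeff_sub, coeff_delta, coeff_C_mul] at hd
    by_contra hcon
    rw [not_or, not_and_or, not_exists] at hcon
    apply hd
    have hs : ∑ i : Fin m, Q i * coeff d (pderiv i.succ g) = 0 :=
      Finset.sum_eq_zero fun i _ => by
        rw [coeff_pderiv, not_not.1 (hcon.2 i.succ), zero_mul, mul_zero]
    rw [hs, add_zero]
    rcases hcon.1 with h1 | h1
    · rw [not_not.1 h1]; simp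
    · rw [← not_not.1 h1, sub_self]

/-- An eigenvector of `δ` in `ℂ[y, x_i]` does not involve `x_i`. -/
theorem eigen {m : ℕ} (Q : Fin m → ℂ) (i : Fin m) (hQ : Q i ≠ 0)
    (g : MvPolynomial (Fin (m + 1)) ℂ) (c : ℂ) (hδ : delta Q g = C c * g)
    (hl : ∀ l : Fin m, l ≠ i → pderiv l.succ g = 0) : pderiv i.succ g = 0 := by
  have heq : ∀ d : Fin (m + 1) →₀ ℕ, (c - d 0) * coeff d g =
      Q i * (coeff (d + Finsupp.single i.succ 1) g * (d i.succ + 1)) := by
    intro d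
    have := congrArg (coeff d) hδ
    rw [coeff_delta, coeff_C_mul, Finset.sum_eq_single i
      (fun l _ hli => by rw [hl l hli, coeff_zero, mul_zero]) (by simp), coeff_pderiv] at this
    linear_combination -this
  rw [pderiv_eq_zero_iff]
  intro d hd
  by_contra hdi
  have h0 : ∀ k : ℕ, Finsupp.single i.succ k (0 : Fin (m + 1)) = 0 := fun k =>
    Finsupp.single_eq_of_ne (Fin.succ_ne_zero i).symm
  have hc : c - d 0 ≠ 0 := by
    have h1 := heq (d - Finsupp.single i.succ 1)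
    rw [sub_add_single hdi] at h1
    have h2 : (d - Finsupp.single i.succ 1 : Fin (m + 1) →₀ ℕ) 0 = d 0 := by
      simp only [Finsupp.coe_tsub, Pi.sub_apply, h0, Nat.sub_zero]
    rw [h2] at h1
    exact left_ne_zero_of_mul
      (h1 ▸ mul_ne_zero hQ (mul_ne_zero hd (Nat.cast_add_one_ne_zero _)))
  have hk : ∀ k : ℕ, coeff (d + Finsupp.single i.succ k) g ≠ 0 := by
    intro k
    induction k with
    | zero => simpa using hd
    | succ k ih =>
      have h1 := heq (d + Finsupp.single i.succ k)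
      rw [Finsupp.add_apply, h0, add_zero, add_assoc, ← Finsupp.single_add] at h1
      exact left_ne_zero_of_mul (right_ne_zero_of_mul (h1 ▸ mul_ne_zero hc ih))
  have := monomial_le_degreeOf i.succ (mem_support_iff.2 (hk (degreeOf i.succ g + 1)))
  rw [Finsupp.add_apply, Finsupp.single_eq_same] at this
  omega

theorem pderiv_eq_zero_of_supported {σ : Type*} {S : Set σ} {g : MvPolynomial σ ℂ}
    (hg : g ∈ supported ℂ S) {l : σ} (hl : l ∉ S) : pderiv l g = 0 :=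
  pderiv_eq_zero_iff.2 fun d hd => by_contra fun h => hl (mem_supported_iff.1 hg d hd l h)

theorem supported_diff_of_pderiv_eq_zero {σ : Type*} {S : Set σ} {g : MvPolynomial σ ℂ}
    (hg : g ∈ supported ℂ S) {l : σ} (hl : pderiv l g = 0) : g ∈ supported ℂ (S \ {l}) :=
  mem_supported_iff.2 fun d hd i hi => ⟨mem_supported_iff.1 hg d hd i hi, fun h => by
    rw [Set.mem_singleton_iff.1 h] at hi
    exact hi (pderiv_eq_zero_iff.1 hl d hd)⟩

/-- A prime ideal inside the maximal ideal of `ξ` that contains a nonzero polynomial in the single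
variable `X i` contains `X i - ξ i`. -/
theorem univariate {σ : Type*} (q : Ideal (MvPolynomial σ ℂ)) (hqp : q.IsPrime) (ξ : σ → ℂ)
    (hξ : ∀ f ∈ q, eval ξ f = 0) (i : σ) (g : MvPolynomial σ ℂ) (hg0 : g ≠ 0) (hgq : g ∈ q)
    (hg : ∀ l, l ≠ i → pderiv l g = 0) : X i - C (ξ i) ∈ q := by
  have hs : g ∈ supported ℂ {i} := mem_supported_iff.2 fun d hd l hl =>
    by_contra fun h => hl (pderiv_eq_zero_iff.1 (hg l h) d hd)
  rw [supported_eq_adjoin_X, Set.image_singleton, Algebra.adjoin_singleton_eq_range_aeval] at hs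
  obtain ⟨p, rfl⟩ := hs
  have hp : p ≠ 0 := by rintro rfl; exact hg0 (map_zero _)
  have hgq' : Polynomial.aeval (X i : MvPolynomial σ ℂ) p ∈ q := hgq
  rw [(IsAlgClosed.splits p).eq_prod_roots, map_mul, map_multiset_prod, Polynomial.aeval_C] at hgq'
  rcases hqp.mem_or_mem hgq' with h | h
  · have := hξ _ h
    rw [algebraMap_eq, eval_C] at this
    exact absurd this (Polynomial.leadingCoeff_ne_zero.2 hp)
  · obtain ⟨r, hr, hrq⟩ := (hqp.multiset_prod_mem_iff_exists_mem _).1 h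
    obtain ⟨r', hr', rfl⟩ := Multiset.mem_map.1 hr
    obtain ⟨a, -, rfl⟩ := Multiset.mem_map.1 hr'
    rw [map_sub, Polynomial.aeval_X, Polynomial.aeval_C, algebraMap_eq] at hrq
    have := hξ _ hrq
    rw [map_sub, eval_X, eval_C, sub_eq_zero] at this
    rwa [this]

end Crest.Agent.R11
end

-- ▼ part PVc/R11/Product
section

set_option autoImplicit false

namespace Crest.Agent.R11
open MvPolynomial

/-- The product lemma. -/
theorem product {m : ℕ} (Q : Fin m → ℂ) (hQ : ∀ i, Q i ≠ 0) (ω : Fin (m + 1) → ℕ)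
    (hω : ∀ i, 0 < ω i) (Cst η : ℕ) (hC : 1 ≤ Cst) (hη : 0 < η) (hC0 : Cst < ω 0)
    (hhier : ∀ l i : Fin (m + 1), l < i → Cst ^ (m + 1) * vw ω l < vw ω i)
    (P : MvPolynomial (Fin (m + 1)) ℂ) (hP0 : P ≠ 0) (hP : P ∈ Deg ω (Cst * η))
    (ξ : Fin (m + 1) → ℂ) (hξ0 : ξ 0 = 1) (p : Ideal (MvPolynomial (Fin (m + 1)) ℂ))
    (hp : p.IsPrime) (hpξ : ∀ f ∈ p, eval ξ f = 0)
    (hwords : ∀ β, wt (vw ω) β ≤ (m + 1) * η → wordD (DD Q) β P ∈ p) :
    X 0 - 1 ∈ p ∧ ∃ i : Fin m, X i.succ - C (ξ i.succ) ∈ p := by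
  classical
  let G : ℕ → Set (MvPolynomial (Fin (m + 1)) ℂ) :=
    fun j => {f | ∃ β, wt (vw ω) β ≤ j * η ∧ f = wordD (DD Q) β P}
  have hmono : Monotone (fun j => Ideal.span (G j)) := by
    intro a b hab
    refine Ideal.span_mono ?_
    rintro f ⟨β, hβ, rfl⟩
    exact ⟨β, hβ.trans (Nat.mul_le_mul_right _ hab), rfl⟩
  have hPG : ∀ j, P ∈ Ideal.span (G j) := fun j => Ideal.subset_span ⟨[], by simp, rfl⟩
  have h0 : Ideal.span (G 0) ≠ ⊥ := fun h => hP0 (by simpa [h] using hPG 0)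
  have hap : Ideal.span (G (m + 1)) ≤ p := by
    rw [Ideal.span_le]
    rintro f ⟨β, hβ, rfl⟩
    exact hwords β hβ
  obtain ⟨j, -, q, hqmin, hq1, hqp⟩ := chain (fun j => Ideal.span (G j)) hmono h0 p hp hap
  have hqprime : q.IsPrime := hqmin.1.1
  have hqξ : ∀ f ∈ q, eval ξ f = 0 := fun f hf => hpξ f (hqp hf)
  have hG : ∀ g ∈ G j, g ∈ Deg ω (Cst * η) ∧ g ∈ FQ (DD Q) (vw ω) q η := by
    rintro f ⟨β, hβ, rfl⟩
    refine ⟨wordD_mem_Deg Q β hP, fun γ hγ => ?_⟩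
    rw [← wordD_append]
    refine hq1 (Ideal.subset_span ⟨γ ++ β, ?_, rfl⟩)
    rw [wt_append, add_mul, one_mul]; omega
  have hPq : P ∈ q := hq1 (hPG _)
  obtain ⟨J, hJ, hgr⟩ := greedy q hqprime.ne_top
  choose g hg0 hgq hgs hgd hgδ using fun i (hi : i ∉ J) => minG Q q _ (hgr i hi)
  have hoff : ∀ i (hi : i ∉ J) l, l ≠ i → ¬ (l ∈ J ∧ l < i) → pderiv l (g i hi) = 0 := by
    intro i hi l h1 h2
    refine pderiv_eq_zero_of_supported (hgs i hi) ?_
    rintro (h | h)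
    · exact h1 h
    · exact h2 h
  have hdiag : ∀ i (hi : i ∉ J), pderiv i (g i hi) ∉ q := by
    intro i hi h
    have h1 := supported_diff_of_pderiv_eq_zero (hgs i hi) (hgd i hi i h)
    refine hg0 i hi (hJ _ (supported_mono ?_ h1) (hgq i hi))
    rintro l ⟨h2 | h2, h3⟩
    · exact absurd h2 h3
    · exact h2.1
  have halg : ∀ i, i ∉ J → ∃ g, g ≠ 0 ∧ g ∈ q ∧
      g ∈ supported ℂ (insert i (J : Set (Fin (m + 1)))) := by
    intro i hi
    refine ⟨g i hi, hg0 i hi, hgq i hi, supported_mono ?_ (hgs i hi)⟩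
    exact Set.insert_subset_insert fun l hl => hl.1
  have key : ∀ (g' : {i // i ∉ J} → MvPolynomial (Fin (m + 1)) ℂ)
      (σ : {i // i ∉ J} → Fin (m + 1)) (r : {i // i ∉ J} → ℕ), (∀ i, g' i ∈ q) →
      (∀ i' i'', i' ≠ i'' → r i'' ≤ r i' → DD Q (σ i') (g' i'') ∈ q) →
      (∀ i, DD Q (σ i) (g' i) ∉ q) →
      ∏ i : {i // i ∉ J}, ω i ≤
        Cst ^ Fintype.card {i // i ∉ J} * ∏ i : {i // i ∉ J}, vw ω (σ i) := by
    intro g' σ r h1 h2 h3
    obtain ⟨h, s, hs, hh, hD⟩ := exists_dual q hqprime (fun i => DD Q (σ i)) g' h1 r h2 h3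
    have := bezout (DD Q) (vw ω) ω (vw_pos hω) hω q hqprime J hJ halg (G j) (Cst * η) η
      (Nat.mul_pos hC hη) hη hG hqmin h hh σ s hs hD
    rw [mul_pow, mul_comm (Cst ^ _), mul_assoc] at this
    exact Nat.le_of_mul_le_mul_left this (pow_pos hη _)
  have hy : (0 : Fin (m + 1)) ∉ J → X 0 - 1 ∈ q := by
    intro h0J
    have := univariate q hqprime ξ hqξ 0 (g 0 h0J) (hg0 _ _) (hgq _ _)
      (fun l hl => hoff 0 h0J l hl (fun h => absurd h.2 (Fin.not_lt_zero l)))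
    simpa [hξ0] using this
  have hX0 : (X 0 : MvPolynomial (Fin (m + 1)) ℂ) ∉ q := fun h => by
    have := hqξ _ h
    simp [hξ0] at this
  have hδy : delta Q (X 0 - 1 : MvPolynomial (Fin (m + 1)) ℂ) = X 0 := by simp
  have hpy : ∀ l : Fin (m + 1), l ≠ 0 → pderiv l (X 0 - 1 : MvPolynomial (Fin (m + 1)) ℂ) = 0 := by
    intro l hl
    simp [pderiv_X, Pi.single_apply, hl.symm]
  have hvω : ∀ i, vw ω i ≤ ω i := by
    intro i
    refine Fin.cases ?_ (fun j => ?_) i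
    · exact hω 0
    · exact le_rfl
  have hcard : Fintype.card {i // i ∉ J} ≤ m + 1 := by
    simpa using Fintype.card_subtype_le (fun i => i ∉ J)
  have H : ∀ i₀ (hi₀ : i₀ ∉ J), i₀ ≠ 0 → ∀ l, l ∈ J → l < i₀ → DD Q l (g i₀ hi₀) ∈ q := by
    intro i₀ hi₀ hne l hlJ hl
    by_contra hcon
    have := key (fun i => if i.1 = 0 then X 0 - 1 else g i.1 i.2)
      (fun i => if i.1 = i₀ then l else i.1)
      (fun i => if i.1 = 0 then 0 else if i.1 = i₀ then 1 else 2) ?_ ?_ ?_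
    · rw [← Finset.mul_prod_erase _ _ (Finset.mem_univ (⟨i₀, hi₀⟩ : {i // i ∉ J})),
        ← Finset.mul_prod_erase _ _ (Finset.mem_univ (⟨i₀, hi₀⟩ : {i // i ∉ J}))] at this
      simp only [if_true] at this
      have h1 : ∏ i ∈ Finset.univ.erase (⟨i₀, hi₀⟩ : {i // i ∉ J}),
          vw ω (if i.1 = i₀ then l else i.1) ≤
          ∏ i ∈ Finset.univ.erase (⟨i₀, hi₀⟩ : {i // i ∉ J}), ω i := by
        refine Finset.prod_le_prod' fun i hi => ?_
        rw [if_neg (fun h => (Finset.mem_erase.1 hi).1 (Subtype.ext h))]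
        exact hvω _
      have h2 : 0 < ∏ i ∈ Finset.univ.erase (⟨i₀, hi₀⟩ : {i // i ∉ J}), ω i :=
        Finset.prod_pos fun i _ => hω _
      have h3 := hhier l i₀ hl
      rw [vw_of_ne ω hne] at h3
      have h4 : Cst ^ Fintype.card {i // i ∉ J} ≤ Cst ^ (m + 1) := Nat.pow_le_pow_right hC hcard
      have h5 := this.trans (Nat.mul_le_mul h4 (Nat.mul_le_mul_left _ h1))
      rw [← mul_assoc] at h5
      have h6 := Nat.le_of_mul_le_mul_right h5 h2
      omega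
    · intro i
      split_ifs with h
      · exact hy (h ▸ i.2)
      · exact hgq _ _
    · intro i' i'' hne' hr
      have hne'' : i'.1 ≠ i''.1 := fun h => hne' (Subtype.ext h)
      by_cases h1 : i'.1 = 0
      · have h2 : i''.1 ≠ 0 := fun h => hne'' (h1.trans h.symm)
        simp only [h1, h2, if_true, if_false] at hr
        split_ifs at hr <;> omega
      by_cases h2 : i'.1 = i₀
      · have h3 : i''.1 ≠ i₀ := fun h => hne'' (h2.trans h.symm)
        have h4 : i''.1 = 0 := by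
          by_contra h4
          simp only [h2, h3, h4, hne, if_true, if_false] at hr
          omega
        have h5 : l ≠ 0 := fun h => (h4 ▸ i''.2) (h ▸ hlJ)
        simp only [h2, h4, if_true]
        rw [DD_of_ne Q h5, hpy l h5]
        exact q.zero_mem
      · simp only [h2, if_false]
        rw [DD_of_ne Q h1]
        split_ifs with h3
        · rw [hpy _ h1]; exact q.zero_mem
        · rw [hoff _ _ _ hne'' (fun h => i'.2 h.1)]; exact q.zero_mem
    · intro i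
      by_cases h1 : i.1 = 0
      · have h2 : i.1 ≠ i₀ := fun h => hne (h.symm.trans h1)
        simp only [h2, if_false]
        simp only [h1, if_true, DD_zero, hδy]
        exact hX0
      by_cases h2 : i.1 = i₀
      · obtain ⟨i, hi⟩ := i
        subst h2
        simp only [if_true, if_neg h1]
        exact hcon
      · simp only [h1, h2, if_false]
        rw [DD_of_ne Q h1]
        exact hdiag _ _
  have H2 : ∀ i₀ (hi₀ : i₀ ∉ J), i₀ ≠ 0 → ∀ l, l ≠ 0 → l ≠ i₀ → pderiv l (g i₀ hi₀) = 0 := by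
    intro i₀ hi₀ hne l hl0 hl
    by_cases h : l ∈ J ∧ l < i₀
    · have := H i₀ hi₀ hne l h.1 h.2
      rw [DD_of_ne Q hl0] at this
      exact hgd _ _ _ this
    · exact hoff _ _ _ hl h
  by_cases h0J : (0 : Fin (m + 1)) ∈ J
  · exfalso
    have hex : ∃ i₀, i₀ ∉ J := by
      by_contra hall
      push Not at hall
      refine hP0 (hJ P ?_ hPq)
      have : (J : Set (Fin (m + 1))) = Set.univ := Set.eq_univ_of_forall hall
      rw [this, supported_univ]
      trivial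
    obtain ⟨i₀, hi₀⟩ := hex
    have hne : i₀ ≠ 0 := fun h => hi₀ (h ▸ h0J)
    obtain ⟨c, hc⟩ := hgδ i₀ hi₀ (H i₀ hi₀ hne 0 h0J (Fin.pos_iff_ne_zero.2 hne))
    obtain ⟨i, rfl⟩ := Fin.exists_succ_eq.2 hne
    have := eigen Q i (hQ i) _ c hc (fun l hl => H2 _ hi₀ hne _ (Fin.succ_ne_zero l)
      (fun h => hl (Fin.succ_injective _ h)))
    exact hdiag _ hi₀ (this ▸ q.zero_mem)
  · refine ⟨hqp (hy h0J), ?_⟩
    by_cases hex : ∃ i₀, i₀ ∉ J ∧ i₀ ≠ 0
    · obtain ⟨i₀, hi₀, hne⟩ := hex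
      have := univariate q hqprime ξ hqξ i₀ (g i₀ hi₀) (hg0 _ _) (hgq _ _) (fun l hl => by
        by_cases hl0 : l = 0
        · exact hoff _ _ _ hl (fun h => h0J (hl0 ▸ h.1))
        · exact H2 _ _ hne _ hl0 hl)
      obtain ⟨i, rfl⟩ := Fin.exists_succ_eq.2 hne
      exact ⟨i, hqp this⟩
    · exfalso
      push Not at hex
      have huniq : ∀ i : {i // i ∉ J}, i = ⟨0, h0J⟩ := fun i => Subtype.ext (hex i.1 i.2)
      letI : Unique {i // i ∉ J} := ⟨⟨⟨0, h0J⟩⟩, huniq⟩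
      have := key (fun _ => X 0 - 1) (fun _ => 0) (fun _ => 0) (fun _ => hy h0J)
        (fun i' i'' h _ => absurd (Subsingleton.elim _ _) h)
        (fun _ => by rw [DD_zero, hδy]; exact hX0)
      rw [Fintype.card_unique, Fintype.prod_unique, Fintype.prod_unique] at this
      simp only [vw_zero, pow_one, mul_one] at this
      exact absurd hC0 (not_lt.2 this)

end Crest.Agent.R11
end

-- ▼ part PVc/R11/Tau
section

set_option autoImplicit false

namespace Crest.Agent.R11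
open MvPolynomial

theorem tau_comm_of_X {σ : Type*} (φ : MvPolynomial σ ℂ →ₐ[ℂ] MvPolynomial σ ℂ)
    (D E : Derivation ℂ (MvPolynomial σ ℂ) (MvPolynomial σ ℂ))
    (h : ∀ j, φ (D (X j)) = E (φ (X j))) (f : MvPolynomial σ ℂ) : φ (D f) = E (φ f) := by
  induction f using MvPolynomial.induction_on with
  | C a => rw [derivation_C, map_zero, algHom_C, algebraMap_eq, derivation_C]
  | add p q hp hq => simp only [map_add, hp, hq]
  | mul_X p j hp => simp only [Derivation.leibniz, smul_eq_mul, map_add, map_mul, hp, h]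

theorem tau_pderiv_succ {m : ℕ} (c : Fin m → Polynomial ℂ) (i : Fin m)
    (f : MvPolynomial (Fin (m + 1)) ℂ) :
    tau c (pderiv i.succ f) = pderiv i.succ (tau c f) := by
  refine tau_comm_of_X (tau c) _ _ (fun j => ?_) f
  refine Fin.cases ?_ (fun k => ?_) j
  · simp [pderiv_X, (Fin.succ_ne_zero _).symm]
  · by_cases hk : k = i
    · simp [pderiv_X, hk, Derivation.map_aeval, (Fin.succ_ne_zero _).symm]
    · simp [pderiv_X, hk, Derivation.map_aeval, (Fin.succ_ne_zero _).symm]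

theorem tau_delta {m : ℕ} (Q : Fin m → ℂ) (c : Fin m → Polynomial ℂ)
    (f : MvPolynomial (Fin (m + 1)) ℂ) :
    tau c (delta Q f) = (1 + X 0) * pderiv 0 (tau c f) +
      ∑ i : Fin m, Polynomial.aeval (X 0 : MvPolynomial (Fin (m + 1)) ℂ)
        (Polynomial.C (Q i) - (1 + Polynomial.X) * Polynomial.derivative (c i)) *
          pderiv i.succ (tau c f) := by
  have := tau_comm_of_X (tau c) (delta Q)
    ((1 + X 0 : MvPolynomial (Fin (m + 1)) ℂ) • pderiv 0 +
      ∑ i : Fin m, (Polynomial.aeval (X 0 : MvPolynomial (Fin (m + 1)) ℂ)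
        (Polynomial.C (Q i) - (1 + Polynomial.X) * Polynomial.derivative (c i))) •
          pderiv i.succ) (fun j => ?_) f
  · rw [this]
    simp only [Derivation.add_apply, Derivation.smul_apply, derivation_sum_apply, smul_eq_mul]
  simp only [Derivation.add_apply, Derivation.smul_apply, derivation_sum_apply, smul_eq_mul]
  refine Fin.cases ?_ (fun k => ?_) j
  · simp [pderiv_X, (Fin.succ_ne_zero _).symm]
  · rw [Finset.sum_eq_single k]
    · simp [pderiv_X, Derivation.map_aeval, (Fin.succ_ne_zero _).symm, Fin.succ_ne_zero]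
    · intro i _ hi
      simp [pderiv_X, Derivation.map_aeval, (Fin.succ_ne_zero _).symm, hi.symm]
    · simp

/-- In the local coordinates, `D i` lowers the order by at most `vw ω i`. -/
theorem tau_DD_mem {m : ℕ} (Q : Fin m → ℂ) (ω : Fin (m + 1) → ℕ) (hω : ∀ i, 0 < ω i)
    (c : Fin m → Polynomial ℂ)
    (hc : ∀ i, Polynomial.X ^ (ω i.succ - 1) ∣
      Polynomial.C (Q i) - (1 + Polynomial.X) * Polynomial.derivative (c i))
    (t : ℕ) (f : MvPolynomial (Fin (m + 1)) ℂ) (hf : tau c f ∈ Ord (vw ω) t) (i : Fin (m + 1)) :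
    tau c (DD Q i f) ∈ Ord (vw ω) (t - vw ω i) := by
  refine Fin.cases ?_ (fun k => ?_) i
  · rw [DD_zero, tau_delta]
    refine Ideal.add_mem _ (Ideal.mul_mem_left _ _ (pderiv_mem_Ord 0 hf))
      (Ideal.sum_mem _ fun j _ => ?_)
    obtain ⟨r, hr⟩ := hc j
    rw [hr, map_mul, map_pow, Polynomial.aeval_X, mul_comm _ (Polynomial.aeval _ r), mul_assoc]
    refine Ideal.mul_mem_left _ _ ?_
    have h1 := Ord_mul (Ord_pow (X_mem_Ord (vw ω) 0) (ω j.succ - 1)) (pderiv_mem_Ord j.succ hf)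
    refine Ord_anti _ ?_ h1
    have := hω j.succ
    simp only [vw_zero, vw_succ]
    omega
  · rw [DD_succ, tau_pderiv_succ]
    exact pderiv_mem_Ord _ hf

theorem tau_wordD_mem {m : ℕ} (Q : Fin m → ℂ) (ω : Fin (m + 1) → ℕ) (hω : ∀ i, 0 < ω i)
    (c : Fin m → Polynomial ℂ)
    (hc : ∀ i, Polynomial.X ^ (ω i.succ - 1) ∣
      Polynomial.C (Q i) - (1 + Polynomial.X) * Polynomial.derivative (c i))
    (t : ℕ) (f : MvPolynomial (Fin (m + 1)) ℂ) (hf : tau c f ∈ Ord (vw ω) t)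
    (β : List (Fin (m + 1))) :
    tau c (wordD (DD Q) β f) ∈ Ord (vw ω) (t - wt (vw ω) β) := by
  induction β with
  | nil => simpa using hf
  | cons i β ih =>
    have := tau_DD_mem Q ω hω c hc _ _ ih i
    rw [wordD_cons, wt_cons, add_comm (vw ω i), ← Nat.sub_sub]
    exact this

theorem tau_surjective {m : ℕ} (c : Fin m → Polynomial ℂ) : Function.Surjective (tau c) := by
  have h0 : tau c (X 0 - 1) = X 0 := by simp
  intro g
  induction g using MvPolynomial.induction_on with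
  | C a => exact ⟨C a, algHom_C _ _⟩
  | add p q hp hq =>
    obtain ⟨p', rfl⟩ := hp
    obtain ⟨q', rfl⟩ := hq
    exact ⟨p' + q', map_add _ _ _⟩
  | mul_X p j hp =>
    obtain ⟨p', rfl⟩ := hp
    refine Fin.cases ⟨p' * (X 0 - 1), by rw [map_mul, h0]⟩ (fun k => ?_) j
    refine ⟨p' * (X k.succ - Polynomial.aeval (X 0 - 1) (c k)), ?_⟩
    rw [map_mul, map_sub, ← Polynomial.aeval_algHom_apply, h0, tau_X_succ, add_sub_cancel_right]

theorem constantCoeff_tau {m : ℕ} (c : Fin m → Polynomial ℂ) (f : MvPolynomial (Fin (m + 1)) ℂ) :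
    constantCoeff (tau c f) = eval (pt c) f := by
  induction f using MvPolynomial.induction_on with
  | C a => rw [algHom_C, algebraMap_eq, constantCoeff_C, eval_C]
  | add p q hp hq => simp only [map_add, hp, hq]
  | mul_X p j hp =>
    simp only [map_mul, hp, eval_X]
    congr 1
    refine Fin.cases (by simp [pt]) (fun k => ?_) j
    obtain ⟨r, hr⟩ := Polynomial.X_dvd_sub_C (p := c k)
    rw [tau_X_succ, sub_eq_iff_eq_add.1 hr]
    simp [pt]

theorem tau_mem_Ord_one {m : ℕ} (ω : Fin (m + 1) → ℕ) (hω : ∀ i, 0 < ω i)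
    (c : Fin m → Polynomial ℂ) (f : MvPolynomial (Fin (m + 1)) ℂ) (hf : eval (pt c) f = 0) :
    tau c f ∈ Ord (vw ω) 1 := by
  refine mem_Ord.2 fun d hd => ?_
  have hd0 : d = 0 := by
    ext j
    by_contra hj
    have h1 := Finsupp.le_weight_of_ne_zero' (vw ω) (s := j) (f := d) hj
    have h2 := vw_pos hω j
    omega
  rw [hd0, ← hf, ← constantCoeff_tau]
  rfl

theorem Deg_pow {σ : Type*} {w : σ → ℕ} {a : ℕ} {f : MvPolynomial σ ℂ} (hf : f ∈ Deg w a)
    (n : ℕ) : f ^ n ∈ Deg w (n * a) := by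
  induction n with
  | zero => simpa using C_mem_Deg w 0 1
  | succ n ih => rw [pow_succ, add_mul, one_mul]; exact Deg_mul ih hf

theorem Deg_prod {σ ι : Type*} {w : σ → ℕ} (s : Finset ι) {a : ι → ℕ}
    {f : ι → MvPolynomial σ ℂ} (hf : ∀ i, f i ∈ Deg w (a i)) :
    ∏ i ∈ s, f i ∈ Deg w (∑ i ∈ s, a i) := by
  classical
  induction s using Finset.induction_on with
  | empty => simpa using C_mem_Deg w 0 1
  | insert i s hi ih =>
    rw [Finset.prod_insert hi, Finset.sum_insert hi]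
    exact Deg_mul (hf i) ih

/-- An inverse of `tau c` modulo `X 0`. -/
noncomputable def tauInv {m : ℕ} (c : Fin m → Polynomial ℂ) :
    MvPolynomial (Fin (m + 1)) ℂ →ₐ[ℂ] MvPolynomial (Fin (m + 1)) ℂ :=
  aeval (Fin.cons 0 (fun i => X i.succ - C ((c i).coeff 0)) :
    Fin (m + 1) → MvPolynomial (Fin (m + 1)) ℂ)

theorem X_dvd_tau_tauInv {m : ℕ} (c : Fin m → Polynomial ℂ) (h : MvPolynomial (Fin (m + 1)) ℂ) :
    X 0 ∣ h - tau c (tauInv c h) := by
  induction h using MvPolynomial.induction_on with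
  | C a => rw [algHom_C, algebraMap_eq, algHom_C, algebraMap_eq, sub_self]; exact dvd_zero _
  | add p q hp hq =>
    rw [map_add, map_add, add_sub_add_comm]
    exact dvd_add hp hq
  | mul_X p j hp =>
    have h1 : X 0 ∣ X j - tau c (tauInv c (X j)) := by
      refine Fin.cases (by simp [tauInv]) (fun k => ?_) j
      obtain ⟨r, hr⟩ := Polynomial.X_dvd_sub_C (p := c k)
      refine ⟨-Polynomial.aeval (X 0) r, ?_⟩
      have h2 : tauInv c (X k.succ) = X k.succ - C ((c k).coeff 0) := by simp [tauInv]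
      have h3 := congrArg (Polynomial.aeval (X 0 : MvPolynomial (Fin (m + 1)) ℂ)) hr
      rw [map_sub, map_mul, Polynomial.aeval_X, Polynomial.aeval_C, algebraMap_eq] at h3
      rw [h2, map_sub, tau_X_succ, algHom_C, algebraMap_eq]
      linear_combination -h3
    have e : p * X j - tau c (tauInv c (p * X j)) =
        (p - tau c (tauInv c p)) * X j + tau c (tauInv c p) * (X j - tau c (tauInv c (X j))) := by
      rw [map_mul, map_mul]; ring
    rw [e]
    exact dvd_add (hp.mul_right _) (h1.mul_left _)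

theorem tauInv_monomial_mem {m : ℕ} (ω : Fin (m + 1) → ℕ) (c : Fin m → Polynomial ℂ)
    (d : Fin (m + 1) →₀ ℕ) (a : ℂ) :
    tauInv c (monomial d a) ∈ Deg ω (Finsupp.weight (vw ω) d) := by
  rw [tauInv, aeval_monomial, algebraMap_eq, C_mul', Finsupp.prod_fintype _ _ (by simp),
    weight_eq_sum]
  refine Submodule.smul_mem _ _ (Deg_prod _ fun j => Deg_pow ?_ _)
  refine Fin.cases (Submodule.zero_mem _) (fun k => ?_) j
  exact Submodule.sub_mem _ (X_mem_Deg ω k.succ) (C_mem_Deg _ _ _)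

/-- Direct interpolation at one point modulo `y - 1`. -/
theorem direct {m : ℕ} (ω : Fin (m + 1) → ℕ) (c : Fin m → Polynomial ℂ) (t n : ℕ)
    (htn : t ≤ n + 1) (g : MvPolynomial (Fin (m + 1)) ℂ) :
    ∃ p ∈ Deg ω n, ∃ u, tau c (g - p - (X 0 - 1) * u) ∈ Ord (vw ω) t := by
  have key : ∀ h : MvPolynomial (Fin (m + 1)) ℂ,
      ∃ p ∈ Deg ω n, ∃ u, h - tau c p - X 0 * u ∈ Ord (vw ω) t := by
    intro h
    induction h using MvPolynomial.induction_on' with
    | monomial d a =>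
      by_cases hd : Finsupp.weight (vw ω) d ≤ n
      · obtain ⟨u, hu⟩ := X_dvd_tau_tauInv c (monomial d a)
        refine ⟨_, Deg_mono ω hd (tauInv_monomial_mem ω c d a), u, ?_⟩
        rw [hu, sub_self]
        exact Ideal.zero_mem _
      · refine ⟨0, Submodule.zero_mem _, 0, ?_⟩
        rw [map_zero, mul_zero, sub_zero, sub_zero]
        exact monomial_mem_Ord a (by omega)
    | add f g hf hg =>
      obtain ⟨p, hp, u, hu⟩ := hf
      obtain ⟨q, hq, v, hv⟩ := hg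
      refine ⟨p + q, Submodule.add_mem _ hp hq, u + v, ?_⟩
      convert Ideal.add_mem _ hu hv using 1
      rw [map_add]; ring
  obtain ⟨p, hp, u, hu⟩ := key (tau c g)
  obtain ⟨u, rfl⟩ := tau_surjective c u
  refine ⟨p, hp, u, ?_⟩
  have h0 : tau c (X 0 - 1) = X 0 := by simp
  rwa [map_sub, map_sub, map_mul, h0]

/-- The auxiliary polynomial, by a dimension count. -/
theorem exists_P {m K : ℕ} (ω : Fin (m + 1) → ℕ) (hω : ∀ i, 0 < ω i)
    (c : Fin K → Fin m → Polynomial ℂ) (R e : ℕ) (hcount : K * cnt (vw ω) e < cnt ω R) :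
    ∃ P, P ≠ 0 ∧ P ∈ Deg ω R ∧ ∀ k, tau (c k) P ∈ Ord (vw ω) (e + 1) := by
  classical
  let S : Set (Fin (m + 1) →₀ ℕ) := {a | Finsupp.weight (vw ω) a ≤ e}
  let T : Set (Fin (m + 1) →₀ ℕ) := {a | Finsupp.weight ω a ≤ R}
  have hS : Finite S := (cnt_finite (vw_pos hω) e).to_subtype
  have hT : Finite T := (cnt_finite hω R).to_subtype
  have := Fintype.ofFinite S
  have := Fintype.ofFinite T
  let b : Module.Basis T ℂ (Deg ω R) := basisRestrictSupport ℂ T
  have : FiniteDimensional ℂ (Deg ω R) := Module.Finite.of_basis b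
  let L : Deg ω R →ₗ[ℂ] (Fin K × S → ℂ) := LinearMap.pi fun x =>
    (lcoeff ℂ x.2.1).comp ((tau (c x.1)).toLinearMap.comp (Deg ω R).subtype)
  have hlt : Module.finrank ℂ (Fin K × S → ℂ) < Module.finrank ℂ (Deg ω R) := by
    rw [Module.finrank_eq_card_basis b, Module.finrank_fintype_fun_eq_card, Fintype.card_prod,
      Fintype.card_fin, Fintype.card_eq_nat_card, Fintype.card_eq_nat_card,
      Nat.card_coe_set_eq, Nat.card_coe_set_eq]
    exact hcount
  obtain ⟨P, hP, hP0⟩ := (Submodule.ne_bot_iff _).1 (LinearMap.ker_ne_bot_of_finrank_lt (f := L) hlt)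
  refine ⟨P.1, fun h => hP0 (Subtype.ext h), P.2, fun k => mem_Ord.2 fun d hd => ?_⟩
  exact congrFun (LinearMap.mem_ker.1 hP) (k, ⟨d, Nat.lt_succ_iff.1 hd⟩)

end Crest.Agent.R11
end

-- ▼ part PVc/R11/Zero
section

set_option autoImplicit false

namespace Crest.Agent.R11
open MvPolynomial

theorem exists_eta {m K : ℕ} (ω0 S Cst : ℕ) (hC : 1 ≤ Cst) (x : ℝ) (hx0 : 0 < x)
    (hK : (K : ℝ) * ω0 * (x + (m + 1) / Cst) ^ (m + 1) < 1) :
    ∃ η : ℕ, 0 < η ∧
      K * ω0 * (⌈x * (Cst * η : ℕ)⌉₊ + (m + 1) * η + S) ^ (m + 1) < (Cst * η + 1) ^ (m + 1) := by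
  have hcont : ContinuousAt (fun y : ℝ => (K : ℝ) * ω0 * (x + (m + 1) / Cst + y) ^ (m + 1)) 0 := by
    fun_prop
  have hev := hcont.eventually_lt (continuousAt_const (y := (1 : ℝ))) (by simpa using hK)
  obtain ⟨δ, hδ, hδ'⟩ := Metric.eventually_nhds_iff.1 hev
  have h1 := @hδ' (δ / 2) (by rw [Real.dist_eq, sub_zero, abs_of_pos (by positivity)]; linarith)
  obtain ⟨η, hη⟩ := exists_nat_gt ((1 + S) / (δ / 2))
  have hηpos : (0 : ℝ) < η := lt_trans (by positivity) hη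
  have hCR : (1 : ℝ) ≤ Cst := by exact_mod_cast hC
  refine ⟨η, by exact_mod_cast hηpos, ?_⟩
  have hR : (0 : ℝ) < Cst * η := by positivity
  have h2 : ((⌈x * (Cst * η : ℕ)⌉₊ + (m + 1) * η + S : ℕ) : ℝ) ≤
      (Cst * η) * (x + (m + 1) / Cst + δ / 2) := by
    have h3 := (Nat.ceil_lt_add_one (show 0 ≤ x * (Cst * η : ℕ) by positivity)).le
    have h4 : (1 + S : ℝ) ≤ (Cst * η) * (δ / 2) := by
      rw [div_lt_iff₀ (by positivity)] at hη
      nlinarith [mul_pos hηpos hδ]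
    have h5 : (Cst * η : ℝ) * ((m + 1) / Cst) = (m + 1) * η := by field_simp
    push_cast at h3 ⊢
    nlinarith
  have h6 : ((K * ω0 * (⌈x * (Cst * η : ℕ)⌉₊ + (m + 1) * η + S) ^ (m + 1) : ℕ) : ℝ) <
      (((Cst * η + 1) ^ (m + 1) : ℕ) : ℝ) := by
    rw [Nat.cast_mul, Nat.cast_pow, Nat.cast_pow]
    calc ((K * ω0 : ℕ) : ℝ) * ((⌈x * (Cst * η : ℕ)⌉₊ + (m + 1) * η + S : ℕ) : ℝ) ^ (m + 1)
        ≤ ((K * ω0 : ℕ) : ℝ) * ((Cst * η) * (x + (m + 1) / Cst + δ / 2)) ^ (m + 1) := by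
          gcongr
      _ = (Cst * η) ^ (m + 1) * ((K : ℝ) * ω0 * (x + (m + 1) / Cst + δ / 2) ^ (m + 1)) := by
          rw [mul_pow]; push_cast; ring
      _ < (Cst * η) ^ (m + 1) * 1 := by gcongr
      _ ≤ ((Cst * η + 1 : ℕ) : ℝ) ^ (m + 1) := by
          rw [mul_one]; push_cast; gcongr; linarith
  exact_mod_cast h6

theorem comax {m : ℕ} (ω : Fin (m + 1) → ℕ) (hω : ∀ i, 0 < ω i) (c : Fin m → Polynomial ℂ)
    (f : MvPolynomial (Fin (m + 1)) ℂ) (hf : eval (pt c) f ≠ 0) (t : ℕ) :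
    ∃ u φ, tau c φ ∈ Ord (vw ω) t ∧ 1 = f * u + φ := by
  have h1 : tau c (1 - C (eval (pt c) f)⁻¹ * f) ∈ Ord (vw ω) 1 :=
    tau_mem_Ord_one ω hω c _ (by simp [hf])
  obtain ⟨u, hu⟩ := sub_dvd_pow_sub_pow 1 (1 - C (eval (pt c) f)⁻¹ * f) t
  refine ⟨C (eval (pt c) f)⁻¹ * u, (1 - C (eval (pt c) f)⁻¹ * f) ^ t, ?_, ?_⟩
  · rw [map_pow]; simpa using Ord_pow h1 t
  · rw [one_pow] at hu
    linear_combination hu

theorem crt {A κ : Type*} [CommRing A] (b : Ideal A) (F : κ → Ideal A) (s : Finset κ)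
    (h : ∀ k ∈ s, ∃ u ∈ b, ∃ φ ∈ F k, 1 = u + φ) :
    ∃ u ∈ b, ∃ φ, (∀ k ∈ s, φ ∈ F k) ∧ 1 = u + φ := by
  classical
  induction s using Finset.induction_on with
  | empty => exact ⟨0, b.zero_mem, 1, by simp, by simp⟩
  | insert k s hk ih =>
    obtain ⟨u, hu, φ, hφ, e⟩ := ih fun k' hk' => h k' (Finset.mem_insert_of_mem hk')
    obtain ⟨u', hu', φ', hφ', e'⟩ := h k (Finset.mem_insert_self _ _)
    refine ⟨u + u' * φ, b.add_mem hu (b.mul_mem_right _ hu'), φ' * φ, ?_, ?_⟩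
    · intro k' hk'
      rcases Finset.mem_insert.1 hk' with rfl | hk'
      · exact Ideal.mul_mem_right _ _ hφ'
      · exact Ideal.mul_mem_left _ _ (hφ k' hk')
    · linear_combination e + φ * e'

/-- The zero estimate: polynomials of weighted degree `≤ n` interpolate all jets of weight
`< x' n` at the `K` points. -/
theorem zero_estimate {m K : ℕ} (hm : 0 < m) (Q : Fin m → ℂ) (hQ : ∀ i, Q i ≠ 0)
    (ω : Fin (m + 1) → ℕ) (hω : ∀ i, 0 < ω i) (c : Fin K → Fin m → Polynomial ℂ)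
    (hc : ∀ k i, Polynomial.X ^ (ω i.succ - 1) ∣
      Polynomial.C (Q i) - (1 + Polynomial.X) * Polynomial.derivative (c k i))
    (hinj : ∀ i, Function.Injective (fun k => (c k i).coeff 0))
    (Cst : ℕ) (hC : 1 ≤ Cst) (hC0 : Cst < ω 0)
    (hhier : ∀ l i : Fin (m + 1), l < i → Cst ^ (m + 1) * vw ω l < vw ω i)
    (x : ℝ) (hx0 : 0 < x) (hx1 : x ≤ 1)
    (hK : (K : ℝ) * ω 0 * (x + (m + 1) / Cst) ^ (m + 1) < 1) (x' : ℝ) (hx' : x' < x) :
    ∃ N : ℕ, ∀ n : ℕ, N ≤ n → ∀ t : ℕ, (t : ℝ) ≤ x' * n →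
      ∀ (k : Fin K) (α : Fin (m + 1) →₀ ℕ), ∃ f ∈ Deg ω n,
        ∀ (k' : Fin K) (α' : Fin (m + 1) →₀ ℕ), Finsupp.weight (vw ω) α' < t →
          coeff α' (tau (c k') f) = if k' = k ∧ α' = α then 1 else 0 := by
  classical
  obtain ⟨η, hη, hcount⟩ := exists_eta (m := m) (K := K) (ω 0) (∑ i, vw ω i) Cst hC x hx0 hK
  set R := Cst * η with hR
  set e := ⌈x * (R : ℕ)⌉₊ + (m + 1) * η with he
  have hprod : ∏ i, ω i = ω 0 * ∏ i, vw ω i := by
    simp [Fin.prod_univ_succ]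
  have hcnt : K * cnt (vw ω) e < cnt ω R := by
    have h1 := cnt_upper (vw_pos hω) e
    have h2 := cnt_lower hω R
    rw [Fintype.card_fin] at h1 h2
    have h3 : (m + 1).factorial * (∏ i, ω i) * (K * cnt (vw ω) e) <
        (m + 1).factorial * (∏ i, ω i) * cnt ω R := by
      refine lt_of_lt_of_le (lt_of_le_of_lt ?_ hcount) h2
      calc (m + 1).factorial * (∏ i, ω i) * (K * cnt (vw ω) e)
          = K * ω 0 * ((m + 1).factorial * (∏ i, vw ω i) * cnt (vw ω) e) := by rw [hprod]; ring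
        _ ≤ _ := Nat.mul_le_mul_left _ h1
    exact Nat.lt_of_mul_lt_mul_left h3
  obtain ⟨P, hP0, hP, hPO⟩ := exists_P ω hω c R e hcnt
  let Fk : Fin K → ℕ → Ideal (MvPolynomial (Fin (m + 1)) ℂ) :=
    fun k t => (Ord (vw ω) t).comap (tau (c k))
  let F : ℕ → Ideal (MvPolynomial (Fin (m + 1)) ℂ) := fun t => ⨅ k, Fk k t
  have memF : ∀ t f, f ∈ F t ↔ ∀ k, tau (c k) f ∈ Ord (vw ω) t := fun t f => by
    simp only [F, Fk, Ideal.mem_iInf, Ideal.mem_comap]
  have hsep : ∀ (i : Fin m) (k k' : Fin K), k' ≠ k →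
      eval (pt (c k')) (X i.succ - C (pt (c k) i.succ) : MvPolynomial (Fin (m + 1)) ℂ) ≠ 0 := by
    intro i k k' hk h
    simp only [map_sub, eval_X, eval_C, pt, Fin.cons_succ, sub_eq_zero] at h
    exact hk (hinj i h)
  have hmain : SurjC (Deg ω) F x ⊥ := by
    refine surj (Deg ω) F x hx0 (Deg_mono ω) (fun a b f g => Deg_mul) (Deg_exists ω)
      (fun s t hst f hf => (memF _ _).2 fun k => Ord_anti _ hst ((memF _ _).1 hf k))
      (fun s t f g hf hg => (memF _ _).2 fun k => by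
        rw [map_mul]; exact Ord_mul ((memF _ _).1 hf k) ((memF _ _).1 hg k)) ?_ ⊥
    intro p hp
    by_cases hw : ∀ β, wt (vw ω) β ≤ (m + 1) * η → wordD (DD Q) β P ∈ p
    · left
      intro y hy
      refine ⟨0, fun n _ t ht g => ⟨1, one_ne_zero, ?_⟩⟩
      have htn : t ≤ n + 1 := by
        have : (t : ℝ) ≤ n := ht.trans (mul_le_of_le_one_left (Nat.cast_nonneg _) (by linarith))
        have : t ≤ n := by exact_mod_cast this
        omega
      have hco : ∀ k, (∃ f ∈ p, eval (pt (c k)) f ≠ 0) → ∃ u ∈ p, ∃ φ ∈ Fk k t, 1 = u + φ := by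
        rintro k ⟨f, hfp, hf⟩
        obtain ⟨u, φ, h1, h2⟩ := comax ω hω (c k) f hf t
        exact ⟨f * u, p.mul_mem_right _ hfp, φ, h1, h2⟩
      by_cases hall : ∀ k, ∃ f ∈ p, eval (pt (c k)) f ≠ 0
      · obtain ⟨u, hu, φ, hφ, e1⟩ := crt p (fun k => Fk k t) Finset.univ fun k _ => hco k (hall k)
        refine ⟨0, Submodule.zero_mem _, u * g, p.mul_mem_right _ hu, φ * g,
          Ideal.mul_mem_right _ _ ((memF _ _).2 fun k => hφ k (Finset.mem_univ _)), ?_⟩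
        rw [one_smul]
        linear_combination g * e1
      · push Not at hall
        obtain ⟨k₀, hk₀⟩ := hall
        obtain ⟨hy0, i, hi⟩ := product Q hQ ω hω Cst η hC hη hC0 hhier P hP0 hP (pt (c k₀)) rfl
          p hp hk₀ hw
        obtain ⟨u, hu, φ, hφ, e1⟩ := crt p (fun k => Fk k t) (Finset.univ.erase k₀) fun k hk =>
          hco k ⟨_, hi, hsep i k₀ k (Finset.mem_erase.1 hk).1⟩
        obtain ⟨p₀, hp₀, u₀, hψ⟩ := direct ω (c k₀) t n htn g
        refine ⟨p₀, hp₀, (X 0 - 1) * u₀ + u * (g - p₀ - (X 0 - 1) * u₀),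
          p.add_mem (p.mul_mem_right _ hy0) (p.mul_mem_right _ hu),
          φ * (g - p₀ - (X 0 - 1) * u₀), (memF _ _).2 fun k => ?_, ?_⟩
        · rw [map_mul]
          by_cases hk : k = k₀
          · subst hk; exact Ideal.mul_mem_left _ _ hψ
          · exact Ideal.mul_mem_right _ _ (hφ k (Finset.mem_erase.2 ⟨hk, Finset.mem_univ _⟩))
        · rw [one_smul]
          linear_combination (g - p₀ - (X 0 - 1) * u₀) * e1
    · right
      push Not at hw
      obtain ⟨β, hβ, hβp⟩ := hw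
      refine ⟨wordD (DD Q) β P, R, ⌈x * (R : ℕ)⌉₊ + 1, hβp, wordD_mem_Deg Q β hP,
        (memF _ _).2 fun k => ?_, ?_, Nat.succ_pos _⟩
      · exact Ord_anti _ (by omega) (tau_wordD_mem Q ω hω (c k) (hc k) _ P (hPO k) β)
      · push_cast
        have := Nat.le_ceil (x * (R : ℕ))
        linarith
  obtain ⟨N, hN⟩ := hmain x' hx'
  refine ⟨N, fun n hn t ht k α => ?_⟩
  obtain ⟨g₀, hg₀⟩ := tau_surjective (c k) (monomial α 1)
  obtain ⟨u, hu, φ, hφ, e1⟩ := crt (Fk k t) (fun k => Fk k t) (Finset.univ.erase k) fun k' hk' => by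
    have h1 : tau (c k) (X (Fin.succ ⟨0, hm⟩) - C (pt (c k) (Fin.succ ⟨0, hm⟩))) ∈ Ord (vw ω) 1 :=
      tau_mem_Ord_one ω hω _ _ (by simp)
    obtain ⟨u, φ, h2, h3⟩ := comax ω hω (c k')
      ((X (Fin.succ ⟨0, hm⟩) - C (pt (c k) (Fin.succ ⟨0, hm⟩))) ^ t)
      (by rw [map_pow]; exact pow_ne_zero _ (hsep _ k k' (Finset.mem_erase.1 hk').1)) t
    refine ⟨_, Ideal.mul_mem_right _ _ ?_, φ, h2, h3⟩
    rw [Ideal.mem_comap, map_pow]
    simpa using Ord_pow h1 t
  obtain ⟨s, hs, p, hp, u', hu', ψ, hψ, e2⟩ := hN n hn t ht (g₀ * φ)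
  rw [Ideal.mem_bot] at hu'
  refine ⟨s⁻¹ • p, Submodule.smul_mem _ _ hp, fun k' α' hα' => ?_⟩
  have e3 : s⁻¹ • p = g₀ * φ - s⁻¹ • ψ := by
    rw [eq_sub_iff_add_eq, ← smul_add, eq_comm, eq_inv_smul_iff₀ hs, e2, hu', add_zero]
  rw [e3, map_sub, map_smul, coeff_sub, coeff_smul, mem_Ord.1 ((memF _ _).1 hψ k') α' hα',
    smul_zero, sub_zero]
  by_cases hk : k' = k
  · subst hk
    have e4 : g₀ * φ = g₀ - g₀ * u := by linear_combination g₀ * e1.symm
    have h5 : tau (c k') (g₀ * u) ∈ Ord (vw ω) t := by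
      rw [map_mul]; exact Ideal.mul_mem_left _ _ hu
    rw [e4, map_sub, coeff_sub, mem_Ord.1 h5 α' hα', hg₀, coeff_monomial, sub_zero]
    simp [eq_comm]
  · have h5 : tau (c k') (g₀ * φ) ∈ Ord (vw ω) t := by
      rw [map_mul]
      exact Ideal.mul_mem_left _ _ (hφ k' (Finset.mem_erase.2 ⟨hk, Finset.mem_univ _⟩))
    rw [mem_Ord.1 h5 α' hα', if_neg (fun h => hk h.1)]

end Crest.Agent.R11
end

-- ▼ part PVc/R11/Extract
section

set_option autoImplicit false

namespace Crest.Agent.R11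
open MvPolynomial

/-- Orthogonality of the characters of `ℤ/N`. -/
theorem root_orth {N : ℕ} {ζ : ℂ} (hζ : IsPrimitiveRoot ζ N) {a b : ℕ} (ha : a < N) (hb : b < N) :
    ∑ j : Fin N, ((ζ ^ (j : ℕ))⁻¹ ^ a * (ζ ^ (j : ℕ)) ^ b) = if a = b then (N : ℂ) else 0 := by
  have hN : N ≠ 0 := by omega
  have h0 : ζ ≠ 0 := hζ.ne_zero hN
  have e : ∀ j : ℕ, (ζ ^ j)⁻¹ ^ a * (ζ ^ j) ^ b = ((ζ ^ a)⁻¹ * ζ ^ b) ^ j := by
    intro j
    simp only [mul_pow, inv_pow, ← pow_mul, mul_comm a j, mul_comm b j]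
  simp only [e]
  split_ifs with hab
  · subst hab
    simp [inv_mul_cancel₀ (pow_ne_zero a h0)]
  · have h1 : (ζ ^ a)⁻¹ * ζ ^ b ≠ 1 := by
      intro h
      rw [inv_mul_eq_one₀ (pow_ne_zero a h0)] at h
      exact hab (hζ.pow_inj ha hb h)
    have h2 : ((ζ ^ a)⁻¹ * ζ ^ b) ^ N = 1 := by
      rw [mul_pow, inv_pow, ← pow_mul, ← pow_mul, mul_comm a N, mul_comm b N, pow_mul, pow_mul,
        hζ.pow_eq_one]
      simp
    rw [Fin.sum_univ_eq_sum_range (fun j => ((ζ ^ a)⁻¹ * ζ ^ b) ^ j) N, geom_sum_eq h1, h2]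
    simp

/-- Coefficient extraction by averaging over roots of unity on a torus. -/
theorem extract {σ : Type*} [Fintype σ] [DecidableEq σ] (ρ : σ → ℝ) (hρ : ∀ i, 0 < ρ i) (N : ℕ)
    (hN : 0 < N) :
    ∃ (P : (σ → Fin N) → σ → ℂ) (lam : (σ →₀ ℕ) → (σ → Fin N) → ℂ),
      (∀ s i, ‖P s i‖ = ρ i) ∧ (∀ α, ∑ s, ‖lam α s‖ ≤ ∏ i, (ρ i)⁻¹ ^ α i) ∧
      ∀ f : MvPolynomial σ ℂ, (∀ i, degreeOf i f < N) → ∀ α : σ →₀ ℕ, (∀ i, α i < N) →
        coeff α f = ∑ s, lam α s * eval (P s) f := by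
  obtain ⟨ζ, hζ⟩ : ∃ ζ : ℂ, IsPrimitiveRoot ζ N := ⟨_, Complex.isPrimitiveRoot_exp N hN.ne'⟩
  have hζ1 : ‖ζ‖ = 1 := hζ.norm'_eq_one hN.ne'
  have hNC : (N : ℂ) ≠ 0 := by exact_mod_cast hN.ne'
  have hNR : (0 : ℝ) < N := by exact_mod_cast hN
  have hρC : ∀ i, (ρ i : ℂ) ≠ 0 := fun i => by exact_mod_cast (hρ i).ne'
  have hP : ∀ (s : σ → Fin N) i, ‖(ρ i : ℂ) * ζ ^ (s i : ℕ)‖ = ρ i := by
    intro s i
    rw [norm_mul, norm_pow, hζ1, one_pow, mul_one, Complex.norm_real, Real.norm_eq_abs,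
      abs_of_pos (hρ i)]
  refine ⟨fun s i => (ρ i : ℂ) * ζ ^ (s i : ℕ),
    fun α s => ∏ i, ((N : ℂ)⁻¹ * ((ρ i : ℂ) * ζ ^ (s i : ℕ))⁻¹ ^ α i), hP, fun α => ?_, ?_⟩
  · have e : ∀ s : σ → Fin N, ‖∏ i, ((N : ℂ)⁻¹ * ((ρ i : ℂ) * ζ ^ (s i : ℕ))⁻¹ ^ α i)‖ =
        ((N : ℝ) ^ Fintype.card σ)⁻¹ * ∏ i, (ρ i)⁻¹ ^ α i := by
      intro s
      rw [norm_prod]
      simp only [norm_mul (N : ℂ)⁻¹, norm_pow, norm_inv, hP, Complex.norm_natCast]
      rw [Finset.prod_mul_distrib, Finset.prod_const, Finset.card_univ, inv_pow]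
    simp only [e]
    rw [Finset.sum_const, Finset.card_univ, Fintype.card_fun, Fintype.card_fin, nsmul_eq_mul,
      ← mul_assoc, Nat.cast_pow, mul_inv_cancel₀ (pow_ne_zero _ hNR.ne'), one_mul]
  · intro f hf α hα
    have key : ∀ d : σ →₀ ℕ, (∀ i, d i < N) →
        ∑ s : σ → Fin N, (∏ i, ((N : ℂ)⁻¹ * ((ρ i : ℂ) * ζ ^ (s i : ℕ))⁻¹ ^ α i)) *
          ∏ i, ((ρ i : ℂ) * ζ ^ (s i : ℕ)) ^ d i = if α = d then 1 else 0 := by
      intro d hd
      simp only [← Finset.prod_mul_distrib]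
      have h1 := Finset.prod_univ_sum (fun _ : σ => (Finset.univ : Finset (Fin N)))
        (fun i (j : Fin N) => (N : ℂ)⁻¹ * ((ρ i : ℂ) * ζ ^ (j : ℕ))⁻¹ ^ α i *
          ((ρ i : ℂ) * ζ ^ (j : ℕ)) ^ d i)
      rw [Fintype.piFinset_univ] at h1
      rw [← h1]
      have h2 : ∀ i, ∑ j : Fin N, (N : ℂ)⁻¹ * ((ρ i : ℂ) * ζ ^ (j : ℕ))⁻¹ ^ α i *
          ((ρ i : ℂ) * ζ ^ (j : ℕ)) ^ d i = if α i = d i then 1 else 0 := by
        intro i
        have h3 : ∀ j : Fin N, (N : ℂ)⁻¹ * ((ρ i : ℂ) * ζ ^ (j : ℕ))⁻¹ ^ α i *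
            ((ρ i : ℂ) * ζ ^ (j : ℕ)) ^ d i = ((N : ℂ)⁻¹ * ((ρ i : ℂ)⁻¹ ^ α i * (ρ i : ℂ) ^ d i)) *
              ((ζ ^ (j : ℕ))⁻¹ ^ α i * (ζ ^ (j : ℕ)) ^ d i) := by
          intro j
          rw [mul_inv, mul_pow, mul_pow]; ring
        simp only [h3]
        rw [← Finset.mul_sum, root_orth hζ (hα i) (hd i)]
        split_ifs with h
        · rw [h, ← mul_pow, inv_mul_cancel₀ (hρC i), one_pow, mul_one, inv_mul_cancel₀ hNC]
        · simp
      simp only [h2]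
      split_ifs with h
      · subst h; simp
      · obtain ⟨i, hi⟩ : ∃ i, α i ≠ d i := by
          by_contra hc
          exact h (Finsupp.ext fun i => by_contra fun h' => hc ⟨i, h'⟩)
        exact Finset.prod_eq_zero (Finset.mem_univ i) (if_neg hi)
    simp only [eval_eq', Finset.mul_sum]
    rw [Finset.sum_comm]
    have h4 : ∀ d ∈ f.support, ∑ s : σ → Fin N,
        (∏ i, ((N : ℂ)⁻¹ * ((ρ i : ℂ) * ζ ^ (s i : ℕ))⁻¹ ^ α i)) *
          (coeff d f * ∏ i, ((ρ i : ℂ) * ζ ^ (s i : ℕ)) ^ d i) =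
            if α = d then coeff d f else 0 := by
      intro d hd
      have hd' : ∀ i, d i < N := fun i => lt_of_le_of_lt (monomial_le_degreeOf i hd) (hf i)
      simp only [mul_left_comm _ (coeff d f)]
      rw [← Finset.mul_sum, key d hd']
      split_ifs <;> simp
    rw [Finset.sum_congr rfl h4, Finset.sum_ite_eq]
    split_ifs with h
    · rfl
    · exact notMem_support_iff.1 h

attribute [local instance] Matrix.seminormedAddCommGroup in
/-- Siegel's lemma with an entrywise bound and an integer exponent condition. -/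
theorem siegel_int {α β : Type*} [Fintype α] [Fintype β] (A : α → β → ℤ) (M H : ℝ)
    (hM : 1 ≤ M) (hH : 1 ≤ H) (hA : ∀ μ b, |(A μ b : ℝ)| ≤ M)
    (hcard : Fintype.card α < Fintype.card β)
    (hpig : ((Fintype.card β : ℝ) * M) ^ Fintype.card α ≤ H ^ (Fintype.card β - Fintype.card α)) :
    ∃ c : β → ℤ, c ≠ 0 ∧ (∀ b, |(c b : ℝ)| ≤ H) ∧ ∀ μ, ∑ b, A μ b * c b = 0 := by
  classical
  rcases Nat.eq_zero_or_pos (Fintype.card α) with h0 | h0
  · have : Nonempty β := Fintype.card_pos_iff.1 (by omega)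
    have : IsEmpty α := Fintype.card_eq_zero_iff.1 h0
    refine ⟨fun _ => 1, ?_, fun _ => by simpa using hH, fun μ => isEmptyElim μ⟩
    intro h
    have := congrFun h (Classical.arbitrary β)
    simp at this
  obtain ⟨c, hc0, hc1, hc2⟩ :=
    Int.Matrix.exists_ne_zero_int_vec_norm_le (Matrix.of A) hcard h0
  have hA' : ‖Matrix.of A‖ ≤ M := by
    rw [Matrix.norm_le_iff (by linarith)]
    intro i j
    rw [Matrix.of_apply, Int.norm_eq_abs]
    exact hA i j
  have hn : (0 : ℝ) < (Fintype.card β : ℝ) - Fintype.card α := by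
    have : (Fintype.card α : ℝ) < Fintype.card β := by exact_mod_cast hcard
    linarith
  have hle : ((Fintype.card β : ℝ) * max 1 ‖Matrix.of A‖) ^
      ((Fintype.card α : ℝ) / (Fintype.card β - Fintype.card α)) ≤ H := by
    calc _ ≤ ((Fintype.card β : ℝ) * M) ^
          ((Fintype.card α : ℝ) / (Fintype.card β - Fintype.card α)) := by
          gcongr
          exact max_le hM hA'
      _ = (((Fintype.card β : ℝ) * M) ^ Fintype.card α) ^
          (((Fintype.card β - Fintype.card α : ℕ) : ℝ))⁻¹ := by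
          rw [← Real.rpow_natCast, ← Real.rpow_mul (by positivity), Nat.cast_sub hcard.le,
            div_eq_mul_inv]
      _ ≤ (H ^ (Fintype.card β - Fintype.card α)) ^
          (((Fintype.card β - Fintype.card α : ℕ) : ℝ))⁻¹ := by gcongr
      _ = H := Real.pow_rpow_inv_natCast (by linarith) (by omega)
  refine ⟨c, hc0, fun b => ?_, fun μ => ?_⟩
  · have := (norm_le_pi_norm c b).trans (hc2.trans hle)
    rwa [Int.norm_eq_abs] at this
  · exact congrFun hc1 μ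

/-- Approximate Siegel lemma for complex linear forms. -/
theorem approx_siegel {α β : Type*} [Fintype α] [Fintype β] (a : α → β → ℂ) (B S H : ℝ)
    (hB : 0 < B) (hS : 1 ≤ S) (hH : 1 ≤ H) (ha : ∀ μ b, ‖a μ b‖ ≤ B)
    (hcard : 2 * Fintype.card α < Fintype.card β)
    (hpig : ((Fintype.card β : ℝ) * (S + 1)) ^ (2 * Fintype.card α) ≤
      H ^ (Fintype.card β - 2 * Fintype.card α)) :
    ∃ c : β → ℤ, c ≠ 0 ∧ (∀ b, |(c b : ℝ)| ≤ H) ∧
      ∀ μ, ‖∑ b, (c b : ℂ) * a μ b‖ ≤ Fintype.card β * H * B / S := by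
  have hS0 : 0 < S := by linarith
  set z : α → β → ℂ := fun μ b => a μ b * ((S / B : ℝ) : ℂ) with hz
  have hzn : ∀ μ b, ‖z μ b‖ ≤ S := by
    intro μ b
    simp only [hz]
    rw [norm_mul, Complex.norm_real, Real.norm_eq_abs, abs_of_pos (by positivity)]
    calc ‖a μ b‖ * (S / B) ≤ B * (S / B) := by gcongr; exact ha μ b
      _ = S := by field_simp
  have hround : ∀ x : ℝ, |x| ≤ S → |((round x : ℤ) : ℝ)| ≤ S + 1 := by
    intro x hx
    have h1 := abs_sub_round x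
    have h2 := abs_sub_abs_le_abs_sub ((round x : ℤ) : ℝ) x
    rw [abs_sub_comm] at h2
    linarith
  have hc2 : Fintype.card (α ⊕ α) = 2 * Fintype.card α := by rw [Fintype.card_sum]; ring
  obtain ⟨c, hc0, hcH, hc⟩ := siegel_int (α := α ⊕ α) (β := β)
    (Sum.elim (fun μ b => round (z μ b).re) (fun μ b => round (z μ b).im)) (S + 1) H
    (by linarith) hH (by
      rintro (μ | μ) b
      · exact hround _ ((Complex.abs_re_le_norm _).trans (hzn μ b))
      · exact hround _ ((Complex.abs_im_le_norm _).trans (hzn μ b)))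
    (by rwa [hc2]) (by rwa [hc2])
  refine ⟨c, hc0, hcH, fun μ => ?_⟩
  set w : β → ℂ := fun b => ((round (z μ b).re : ℤ) : ℂ) + ((round (z μ b).im : ℤ) : ℂ) * Complex.I
    with hw
  have hw0 : ∑ b, (c b : ℂ) * w b = 0 := by
    have h1 : ∑ b, ((round (z μ b).re : ℤ) : ℂ) * c b = 0 := by exact_mod_cast hc (Sum.inl μ)
    have h2 : ∑ b, ((round (z μ b).im : ℤ) : ℂ) * c b = 0 := by exact_mod_cast hc (Sum.inr μ)
    calc ∑ b, (c b : ℂ) * w b = ∑ b, ((round (z μ b).re : ℤ) : ℂ) * c b +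
          (∑ b, ((round (z μ b).im : ℤ) : ℂ) * c b) * Complex.I := by
          rw [Finset.sum_mul, ← Finset.sum_add_distrib]
          refine Finset.sum_congr rfl fun b _ => ?_
          simp only [hw]; ring
      _ = 0 := by rw [h1, h2]; simp
  have hw1 : ∀ b, ‖z μ b - w b‖ ≤ 1 := by
    intro b
    refine (Complex.norm_le_abs_re_add_abs_im _).trans ?_
    have h1 := abs_sub_round (z μ b).re
    have h2 := abs_sub_round (z μ b).im
    have e1 : (z μ b - w b).re = (z μ b).re - round (z μ b).re := by simp [hw]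
    have e2 : (z μ b - w b).im = (z μ b).im - round (z μ b).im := by simp [hw]
    rw [e1, e2]; linarith
  have e : ∑ b, (c b : ℂ) * a μ b = ((B / S : ℝ) : ℂ) * ∑ b, (c b : ℂ) * (z μ b - w b) := by
    simp only [mul_sub, Finset.sum_sub_distrib, hw0, sub_zero, Finset.mul_sum]
    refine Finset.sum_congr rfl fun b _ => ?_
    have hB' : (B : ℂ) ≠ 0 := by exact_mod_cast hB.ne'
    have hS' : (S : ℂ) ≠ 0 := by exact_mod_cast hS0.ne'
    simp only [hz]; push_cast; field_simp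
  have h3 : ‖∑ b, (c b : ℂ) * (z μ b - w b)‖ ≤ Fintype.card β * H := by
    refine (norm_sum_le _ _).trans ?_
    rw [← Finset.card_univ, ← nsmul_eq_mul]
    refine Finset.sum_le_card_nsmul _ _ _ fun b _ => ?_
    rw [norm_mul, Complex.norm_intCast]
    calc |(c b : ℝ)| * ‖z μ b - w b‖ ≤ H * 1 := by gcongr; exacts [hcH b, hw1 b]
      _ = H := mul_one _
  rw [e, norm_mul, Complex.norm_real, Real.norm_eq_abs, abs_of_pos (by positivity)]
  calc B / S * ‖∑ b, (c b : ℂ) * (z μ b - w b)‖ ≤ B / S * (Fintype.card β * H) := by gcongr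
    _ = _ := by ring

end Crest.Agent.R11
end

-- ▼ part PVc/R11/Analytic
section

set_option autoImplicit false

namespace Crest.Agent.R11
open MvPolynomial

/-- Tail of the exponential series. -/
theorem an_exp_tail (z : ℂ) (x : ℝ) (hz : ‖z‖ ≤ x) (n : ℕ) :
    ‖Complex.exp z - ∑ u ∈ Finset.range n, z ^ u / u.factorial‖ ≤ (1 / 2) ^ n * Real.exp (2 * x) := by
  have hs : ∀ y : ℝ, HasSum (fun u : ℕ => y ^ u / (u.factorial : ℝ)) (Real.exp y) := fun y => by
    rw [Real.exp_eq_exp_ℝ]; exact NormedSpace.expSeries_div_hasSum_exp y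
  refine (Complex.norm_exp_sub_sum_le_exp_norm_sub_sum z n).trans ?_
  have h0 : 0 ≤ ‖z‖ := norm_nonneg z
  have h1 := (hasSum_nat_add_iff' n).2 (hs ‖z‖)
  have h2 := ((hasSum_nat_add_iff' n).2 (hs (2 * x))).mul_left ((1 / 2 : ℝ) ^ n)
  refine (hasSum_le (fun u => ?_) h1 h2).trans ?_
  · rw [mul_pow, ← mul_div_assoc]
    gcongr
    have h3 : (1 : ℝ) ≤ (1 / 2) ^ n * 2 ^ (u + n) := by
      rw [pow_add, mul_left_comm, ← mul_pow]
      simpa using one_le_pow₀ (show (1 : ℝ) ≤ 2 by norm_num)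
    calc ‖z‖ ^ (u + n) ≤ 1 * x ^ (u + n) := by rw [one_mul]; gcongr
      _ ≤ ((1 / 2) ^ n * 2 ^ (u + n)) * x ^ (u + n) := by
          gcongr; exact pow_nonneg (h0.trans hz) _
      _ = _ := by ring
  · gcongr
    refine sub_le_self _ (Finset.sum_nonneg fun u _ => ?_)
    have : 0 ≤ x := h0.trans hz
    positivity

/-- The linear form attached to `c` and `lam`. -/
noncomputable def anL {β Ω : Type*} [Fintype β] [Fintype Ω] (c : β → ℤ) (lam : β → Ω → ℂ)
    (φ : β → Ω → ℂ) : ℂ :=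
  ∑ b, (c b : ℂ) * ∑ s, lam b s * φ b s

theorem anL_sum {β Ω ι : Type*} [Fintype β] [Fintype Ω] (c : β → ℤ) (lam : β → Ω → ℂ)
    (S : Finset ι) (k : ι → ℂ) (φ : ι → β → Ω → ℂ) :
    anL c lam (fun b s => ∑ i ∈ S, k i * φ i b s) = ∑ i ∈ S, k i * anL c lam (φ i) := by
  simp only [anL, Finset.mul_sum]
  rw [Finset.sum_comm (s := S)]
  refine Finset.sum_congr rfl fun b _ => ?_
  rw [Finset.sum_comm (s := S)]
  refine Finset.sum_congr rfl fun s _ => Finset.sum_congr rfl fun i _ => by ring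

theorem anL_add {β Ω : Type*} [Fintype β] [Fintype Ω] (c : β → ℤ) (lam : β → Ω → ℂ)
    (φ ψ : β → Ω → ℂ) :
    anL c lam (fun b s => φ b s + ψ b s) = anL c lam φ + anL c lam ψ := by
  simp only [anL, mul_add, Finset.sum_add_distrib]

theorem anL_smul {β Ω : Type*} [Fintype β] [Fintype Ω] (c : β → ℤ) (lam : β → Ω → ℂ)
    (k : ℂ) (φ : β → Ω → ℂ) :
    anL c lam (fun b s => k * φ b s) = k * anL c lam φ := by
  simp only [anL, Finset.mul_sum]
  refine Finset.sum_congr rfl fun b _ => Finset.sum_congr rfl fun s _ => by ring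

theorem an_sum_le {Ω : Type*} [Fintype Ω] (lam φ : Ω → ℂ) (B M : ℝ) (hM : 0 ≤ M)
    (hlam : ∑ s, ‖lam s‖ ≤ B) (hφ : ∀ s, ‖φ s‖ ≤ M) : ‖∑ s, lam s * φ s‖ ≤ B * M := by
  refine (norm_sum_le _ _).trans (le_trans ?_ (mul_le_mul_of_nonneg_right hlam hM))
  rw [Finset.sum_mul]
  refine Finset.sum_le_sum fun s _ => ?_
  rw [norm_mul]
  exact mul_le_mul_of_nonneg_left (hφ s) (norm_nonneg _)

theorem anL_le {β Ω : Type*} [Fintype β] [Fintype Ω] (c : β → ℤ) (lam : β → Ω → ℂ)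
    (φ : β → Ω → ℂ) (B H M : ℝ) (hM : 0 ≤ M) (hc : ∀ b, |(c b : ℝ)| ≤ H)
    (hlam : ∀ b, ∑ s, ‖lam b s‖ ≤ B) (hφ : ∀ b s, ‖φ b s‖ ≤ M) :
    ‖anL c lam φ‖ ≤ Fintype.card β * H * B * M := by
  refine (norm_sum_le _ _).trans ?_
  calc ∑ b, ‖(c b : ℂ) * ∑ s, lam b s * φ b s‖ ≤ ∑ _b : β, H * (B * M) := by
        refine Finset.sum_le_sum fun b _ => ?_
        rw [norm_mul, Complex.norm_intCast]
        exact mul_le_mul (hc b) (an_sum_le _ _ B M hM (hlam b) (hφ b)) (norm_nonneg _)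
          ((abs_nonneg _).trans (hc b))
    _ = _ := by simp; ring

theorem an_prod_W {m : ℕ} (W : Fin m → ℂ) (w : Fin m → ℕ) (κ ϱ : ℝ)
    (hW : ∀ i, ‖W i‖ ≤ κ * ϱ ^ w i) (I : Fin m → ℕ) :
    ‖∏ i, W i ^ I i‖ ≤ κ ^ (∑ i, I i) * ϱ ^ (∑ i, I i * w i) := by
  rw [norm_prod, ← Finset.prod_pow_eq_pow_sum, ← Finset.prod_pow_eq_pow_sum,
    ← Finset.prod_mul_distrib]
  refine Finset.prod_le_prod (fun i _ => norm_nonneg _) fun i _ => ?_
  rw [norm_pow, mul_comm (I i), pow_mul, ← mul_pow]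
  exact pow_le_pow_left₀ (norm_nonneg _) (hW i) _

/-- The estimate for a single Taylor monomial in the small variables `W`. -/
theorem an_term {m : ℕ} {β Ω : Type*} [Fintype β] [Fintype Ω] (c : β → ℤ) (lam : β → Ω → ℂ)
    (Z : β → Ω → ℂ) (W : β → Ω → Fin m → ℂ) (w : Fin m → ℕ)
    (B A κ ϱ H : ℝ) (s₃ T₀ D : ℕ)
    (hB : 0 < B) (hA : 1 ≤ A) (hκ : 1 ≤ κ) (hϱ0 : 0 < ϱ) (hϱ1 : ϱ ≤ 1) (hH : 1 ≤ H)
    (hlam : ∀ b, ∑ s, ‖lam b s‖ ≤ B) (hZ : ∀ b s, ‖Z b s‖ ≤ A)
    (hW : ∀ b s i, ‖W b s i‖ ≤ κ * ϱ ^ w i)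
    (hT : (1 / 2 : ℝ) ^ T₀ ≤ ϱ ^ s₃) (hc : ∀ b, |(c b : ℝ)| ≤ H)
    (hsmall : ∀ (I : Fin m → ℕ) (t : ℕ), ∑ i, I i * w i ≤ s₃ → t ≤ D + T₀ →
      ‖anL c lam (fun b s => (∏ i, W b s i ^ I i) * Z b s ^ t)‖ ≤
        Fintype.card β * H * B * (κ ^ (∑ i, I i) * A ^ t * ϱ ^ s₃))
    (I : Fin m → ℕ) (e j : ℕ) (he : e ≤ D) :
    ‖anL c lam (fun b s => (∏ i, W b s i ^ I i) * Z b s ^ e * Complex.exp (j * Z b s))‖ ≤
      2 * Fintype.card β * H * B * (κ ^ (∑ i, I i) * A ^ e) * Real.exp (2 * j * A) * ϱ ^ s₃ := by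
  have hA0 : 0 ≤ A := by linarith
  have hκ0 : 0 ≤ κ := by linarith
  have hH0 : 0 ≤ H := by linarith
  have hjZ : ∀ b s, ‖(j : ℂ) * Z b s‖ ≤ j * A := fun b s => by
    rw [norm_mul, Complex.norm_natCast]
    exact mul_le_mul_of_nonneg_left (hZ b s) (Nat.cast_nonneg _)
  have hjA : (0 : ℝ) ≤ j * A := by positivity
  have hexp : Real.exp (j * A) ≤ Real.exp (2 * j * A) := Real.exp_le_exp.2 (by nlinarith)
  have hZe : ∀ b s, ‖Z b s ^ e‖ ≤ A ^ e := fun b s => by
    rw [norm_pow]; exact pow_le_pow_left₀ (norm_nonneg _) (hZ b s) _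
  set M : ℝ := κ ^ (∑ i, I i) * A ^ e * Real.exp (2 * j * A) * ϱ ^ s₃ with hM
  have hM0 : 0 ≤ M := by positivity
  have hU : 0 ≤ Fintype.card β * H * B * M := by positivity
  have goal : 2 * Fintype.card β * H * B * (κ ^ (∑ i, I i) * A ^ e) * Real.exp (2 * j * A) *
      ϱ ^ s₃ = Fintype.card β * H * B * M + Fintype.card β * H * B * M := by rw [hM]; ring
  rw [goal]
  by_cases hI : ∑ i, I i * w i ≤ s₃
  · have hsplit : (fun b s => (∏ i, W b s i ^ I i) * Z b s ^ e * Complex.exp (j * Z b s)) =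
        fun b s => (∑ u ∈ Finset.range (T₀ + 1), ((j : ℂ) ^ u / u.factorial) *
          ((∏ i, W b s i ^ I i) * Z b s ^ (e + u))) + (∏ i, W b s i ^ I i) * Z b s ^ e *
          (Complex.exp (j * Z b s) -
            ∑ u ∈ Finset.range (T₀ + 1), ((j : ℂ) * Z b s) ^ u / u.factorial) := by
      funext b s
      rw [mul_sub, Finset.mul_sum]
      have : ∀ u ∈ Finset.range (T₀ + 1), ((j : ℂ) ^ u / u.factorial) *
          ((∏ i, W b s i ^ I i) * Z b s ^ (e + u)) =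
          (∏ i, W b s i ^ I i) * Z b s ^ e * (((j : ℂ) * Z b s) ^ u / u.factorial) :=
        fun u _ => by ring
      rw [Finset.sum_congr rfl this]
      ring
    rw [hsplit, anL_add, anL_sum]
    refine (norm_add_le _ _).trans (add_le_add ?_ ?_)
    · refine (norm_sum_le _ _).trans ?_
      calc ∑ u ∈ Finset.range (T₀ + 1), ‖((j : ℂ) ^ u / u.factorial) *
            anL c lam (fun b s => (∏ i, W b s i ^ I i) * Z b s ^ (e + u))‖
          ≤ ∑ u ∈ Finset.range (T₀ + 1), ((j * A : ℝ) ^ u / u.factorial) *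
            (Fintype.card β * H * B * (κ ^ (∑ i, I i) * A ^ e * ϱ ^ s₃)) := by
            refine Finset.sum_le_sum fun u hu => ?_
            have hu' := Finset.mem_range.1 hu
            rw [norm_mul, norm_div, norm_pow, Complex.norm_natCast, Complex.norm_natCast]
            refine (mul_le_mul_of_nonneg_left (hsmall I (e + u) hI (by omega))
              (by positivity)).trans (le_of_eq ?_)
            ring
        _ ≤ Real.exp (2 * j * A) *
            (Fintype.card β * H * B * (κ ^ (∑ i, I i) * A ^ e * ϱ ^ s₃)) := by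
            rw [← Finset.sum_mul]
            exact mul_le_mul_of_nonneg_right
              ((Real.sum_le_exp_of_nonneg hjA _).trans hexp) (by positivity)
        _ = _ := by rw [hM]; ring
    · refine anL_le c lam _ B H M hM0 hc hlam fun b s => ?_
      rw [norm_mul, norm_mul]
      have h1 : ‖∏ i, W b s i ^ I i‖ ≤ κ ^ (∑ i, I i) :=
        (an_prod_W _ w κ ϱ (hW b s) I).trans
          (mul_le_of_le_one_right (by positivity) (pow_le_one₀ hϱ0.le hϱ1))
      have h2 := an_exp_tail _ _ (hjZ b s) (T₀ + 1)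
      have h3 : (1 / 2 : ℝ) ^ (T₀ + 1) ≤ ϱ ^ s₃ :=
        (pow_le_pow_of_le_one (by norm_num) (by norm_num) (Nat.le_succ _)).trans hT
      have h4 : (1 / 2 : ℝ) ^ (T₀ + 1) * Real.exp (2 * (j * A)) ≤ Real.exp (2 * j * A) * ϱ ^ s₃ := by
        rw [mul_comm, ← mul_assoc]
        exact mul_le_mul_of_nonneg_left h3 (Real.exp_pos _).le
      rw [hM, mul_assoc (κ ^ (∑ i, I i) * A ^ e)]
      exact mul_le_mul (mul_le_mul h1 (hZe b s) (norm_nonneg _) (by positivity)) (h2.trans h4)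
        (norm_nonneg _) (by positivity)
  · refine le_trans (anL_le c lam _ B H M hM0 hc hlam fun b s => ?_) (le_add_of_nonneg_right hU)
    rw [norm_mul, norm_mul]
    have h1 : ‖∏ i, W b s i ^ I i‖ ≤ κ ^ (∑ i, I i) * ϱ ^ s₃ :=
      (an_prod_W _ w κ ϱ (hW b s) I).trans (mul_le_mul_of_nonneg_left
        (pow_le_pow_of_le_one hϱ0.le hϱ1 (by omega)) (by positivity))
    have h2 : ‖Complex.exp (j * Z b s)‖ ≤ Real.exp (2 * j * A) :=
      (Complex.norm_exp_le_exp_norm _).trans ((Real.exp_le_exp.2 (hjZ b s)).trans hexp)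
    refine (mul_le_mul (mul_le_mul h1 (hZe b s) (norm_nonneg _) (by positivity)) h2
      (norm_nonneg _) (by positivity)).trans (le_of_eq ?_)
    rw [hM]; ring

/-- The analytic estimate: a small integer combination of the columns is small on every row. -/
theorem analytic {m : ℕ} {β Ω : Type*} [Fintype β] [Fintype Ω] (lam : β → Ω → ℂ)
    (Z : β → Ω → ℂ) (W : β → Ω → Fin m → ℂ) (w : Fin m → ℕ) (hw : ∀ i, 0 < w i)
    (B A κ ϱ H : ℝ) (s₃ T₀ D : ℕ)
    (hB : 0 < B) (hA : 1 ≤ A) (hκ : 1 ≤ κ) (hϱ0 : 0 < ϱ) (hϱ1 : ϱ ≤ 1) (hH : 1 ≤ H)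
    (hlam : ∀ b, ∑ s, ‖lam b s‖ ≤ B) (hZ : ∀ b s, ‖Z b s‖ ≤ A)
    (hW : ∀ b s i, ‖W b s i‖ ≤ κ * ϱ ^ w i)
    (hT : (1 / 2 : ℝ) ^ T₀ ≤ ϱ ^ s₃)
    (hcard : 2 * (cnt w s₃ * (D + T₀ + 1)) < Fintype.card β)
    (hpig : ((Fintype.card β : ℝ) * (ϱ⁻¹ ^ s₃ + 1)) ^ (2 * (cnt w s₃ * (D + T₀ + 1))) ≤
      H ^ (Fintype.card β - 2 * (cnt w s₃ * (D + T₀ + 1)))) :
    ∃ c : β → ℤ, c ≠ 0 ∧ ∀ (a : Fin m → ℕ) (j : ℕ), ∑ i, a i ≤ D →
      ‖∑ b, (c b : ℂ) * ∑ s, lam b s *
          ((∏ i, (Z b s + W b s i) ^ a i) * Complex.exp (j * Z b s))‖ ≤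
        2 * Fintype.card β * H * B * (κ + A) ^ (∑ i, a i) * Real.exp (2 * j * A) * ϱ ^ s₃ := by
  classical
  have hA0 : 0 < A := by linarith
  have hκ0 : 0 < κ := by linarith
  have hH0 : 0 ≤ H := by linarith
  set S := (cnt_finite hw s₃).toFinset with hS
  have hcardα : Fintype.card (S × Fin (D + T₀ + 1)) = cnt w s₃ * (D + T₀ + 1) := by
    rw [Fintype.card_prod, Fintype.card_coe, Fintype.card_fin, cnt,
      Set.ncard_eq_toFinset_card _ (cnt_finite hw s₃)]
  obtain ⟨c, hc0, hc, hsm⟩ := approx_siegel (α := S × Fin (D + T₀ + 1)) (β := β)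
    (fun μ b => ∑ s, lam b s * ((∏ i, (W b s i / ((κ * ϱ ^ w i : ℝ) : ℂ)) ^ μ.1.1 i) *
      (Z b s / (A : ℂ)) ^ (μ.2 : ℕ))) B (ϱ⁻¹ ^ s₃) H hB
    (one_le_pow₀ ((one_le_inv₀ hϱ0).2 hϱ1)) hH (fun μ b => by
      refine (an_sum_le _ _ B 1 zero_le_one (hlam b) fun s => ?_).trans (mul_one B).le
      rw [norm_mul, norm_prod, norm_pow]
      refine mul_le_one₀ (Finset.prod_le_one (fun i _ => norm_nonneg _) fun i _ => ?_)
        (by positivity) (pow_le_one₀ (norm_nonneg _) ?_)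
      · rw [norm_pow]
        refine pow_le_one₀ (norm_nonneg _) ?_
        have : 0 < κ * ϱ ^ w i := by positivity
        rw [norm_div, Complex.norm_real, Real.norm_of_nonneg this.le, div_le_one this]
        exact hW b s i
      · rw [norm_div, Complex.norm_real, Real.norm_of_nonneg hA0.le, div_le_one hA0]
        exact hZ b s)
    (by rw [hcardα]; exact hcard) (by rw [hcardα]; exact hpig)
  have hsmall : ∀ (I : Fin m → ℕ) (t : ℕ), ∑ i, I i * w i ≤ s₃ → t ≤ D + T₀ →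
      ‖anL c lam (fun b s => (∏ i, W b s i ^ I i) * Z b s ^ t)‖ ≤
        Fintype.card β * H * B * (κ ^ (∑ i, I i) * A ^ t * ϱ ^ s₃) := by
    intro I t hI ht
    have hmem : Finsupp.equivFunOnFinite.symm I ∈ S := by
      rw [hS, Set.Finite.mem_toFinset, Set.mem_ofPred_eq, weight_eq_sum]
      simpa using hI
    have h1 := hsm (⟨_, hmem⟩, ⟨t, by omega⟩)
    simp only [Finsupp.equivFunOnFinite_symm_apply_apply] at h1
    set k : ℝ := (∏ i, (κ * ϱ ^ w i) ^ I i) * A ^ t with hk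
    have hk0 : 0 ≤ k := by positivity
    have h2 : (fun b s => (∏ i, W b s i ^ I i) * Z b s ^ t) = fun b s => (k : ℂ) *
        ((∏ i, (W b s i / ((κ * ϱ ^ w i : ℝ) : ℂ)) ^ I i) * (Z b s / (A : ℂ)) ^ t) := by
      funext b s
      rw [hk, Complex.ofReal_mul, Complex.ofReal_prod, mul_mul_mul_comm, ← Finset.prod_mul_distrib,
        Complex.ofReal_pow, ← mul_pow, mul_div_cancel₀ _ (Complex.ofReal_ne_zero.2 hA0.ne')]
      congr 1
      refine Finset.prod_congr rfl fun i _ => ?_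
      have : 0 < κ * ϱ ^ w i := by positivity
      rw [Complex.ofReal_pow, ← mul_pow, mul_div_cancel₀ _ (Complex.ofReal_ne_zero.2 this.ne')]
    have h3 : k ≤ κ ^ (∑ i, I i) * A ^ t := by
      rw [hk, ← Finset.prod_pow_eq_pow_sum]
      refine mul_le_mul_of_nonneg_right (Finset.prod_le_prod (fun i _ => by positivity)
        fun i _ => pow_le_pow_left₀ (by positivity) ?_ _) (by positivity)
      exact mul_le_of_le_one_right hκ0.le (pow_le_one₀ hϱ0.le hϱ1)
    rw [h2, anL_smul, norm_mul, Complex.norm_real, Real.norm_of_nonneg hk0]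
    refine (mul_le_mul h3 h1 (norm_nonneg _) (by positivity)).trans (le_of_eq ?_)
    rw [inv_pow, div_inv_eq_mul]
    ring
  refine ⟨c, hc0, fun a j ha => ?_⟩
  have hexp : (fun b s => (∏ i, (Z b s + W b s i) ^ a i) * Complex.exp (j * Z b s)) =
      fun b s => ∑ I ∈ Fintype.piFinset (fun i => Finset.range (a i + 1)),
        ((∏ i, (a i).choose (I i) : ℕ) : ℂ) *
          ((∏ i, W b s i ^ I i) * Z b s ^ (∑ i, (a i - I i)) * Complex.exp (j * Z b s)) := by
    funext b s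
    simp only [add_comm (Z b s), add_pow]
    rw [Finset.prod_univ_sum, Finset.sum_mul]
    refine Finset.sum_congr rfl fun I _ => ?_
    rw [Finset.prod_mul_distrib, Finset.prod_mul_distrib, Finset.prod_pow_eq_pow_sum, Nat.cast_prod]
    ring
  change ‖anL c lam (fun b s => (∏ i, (Z b s + W b s i) ^ a i) * Complex.exp (j * Z b s))‖ ≤ _
  rw [hexp, anL_sum]
  refine (norm_sum_le _ _).trans ?_
  have hbin : (κ + A) ^ (∑ i, a i) = ∑ I ∈ Fintype.piFinset (fun i => Finset.range (a i + 1)),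
      ((∏ i, (a i).choose (I i) : ℕ) : ℝ) * (κ ^ (∑ i, I i) * A ^ (∑ i, (a i - I i))) := by
    rw [← Finset.prod_pow_eq_pow_sum]
    simp only [add_pow]
    rw [Finset.prod_univ_sum]
    refine Finset.sum_congr rfl fun I _ => ?_
    rw [Finset.prod_mul_distrib, Finset.prod_mul_distrib, Finset.prod_pow_eq_pow_sum,
      Finset.prod_pow_eq_pow_sum, Nat.cast_prod]
    ring
  rw [hbin, Finset.mul_sum, Finset.sum_mul, Finset.sum_mul]
  refine Finset.sum_le_sum fun I _ => ?_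
  have he : ∑ i, (a i - I i) ≤ D := (Finset.sum_le_sum fun i _ => Nat.sub_le _ _).trans ha
  rw [norm_mul, Complex.norm_natCast]
  refine (mul_le_mul_of_nonneg_left (an_term c lam Z W w B A κ ϱ H s₃ T₀ D hB hA hκ hϱ0 hϱ1 hH
    hlam hZ hW hT hc hsmall I _ j he) (Nat.cast_nonneg _)).trans (le_of_eq ?_)
  ring

end Crest.Agent.R11
end

-- ▼ part PVc/R11/CPoly
section

set_option autoImplicit false

namespace Crest.Agent.R11
open MvPolynomial

theorem cpoly_logPoly_succ (Q : ℂ) (n : ℕ) :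
    (1 + Polynomial.X) * Polynomial.derivative (logPoly Q (n + 1)) =
      Polynomial.C Q - Polynomial.C (Q * (-1) ^ n) * Polynomial.X ^ n := by
  induction n with
  | zero => simp [logPoly]
  | succ n ih =>
    have h1 : logPoly Q (n + 1 + 1) = logPoly Q (n + 1) +
        Polynomial.C (Q * (-1) ^ (n + 1 + 1) / ((n + 1 : ℕ) : ℂ)) * Polynomial.X ^ (n + 1) := by
      unfold logPoly
      rw [Finset.sum_range_succ]
    have h2 : (Q * (-1) ^ (n + 1 + 1) / ((n + 1 : ℕ) : ℂ)) * ((n + 1 : ℕ) : ℂ) = Q * (-1) ^ n := by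
      have : ((n + 1 : ℕ) : ℂ) ≠ 0 := Nat.cast_ne_zero.2 (Nat.succ_ne_zero n)
      rw [div_mul_cancel₀ _ this]; ring
    rw [h1, Polynomial.derivative_add, mul_add, ih, Polynomial.derivative_C_mul_X_pow, h2,
      Nat.add_sub_cancel, pow_succ (-1 : ℂ) n, mul_neg_one, mul_neg, Polynomial.C_neg]
    ring

theorem cpoly_dvd (k : ℕ) (p : ℤ) (q w : ℕ) :
    Polynomial.X ^ (w - 1) ∣
      Polynomial.C (QQ q w : ℂ) - (1 + Polynomial.X) * Polynomial.derivative (cpoly k p q w) := by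
  have h0 : Polynomial.derivative (cpoly k p q w) =
      Polynomial.derivative (logPoly (QQ q w) w) := by
    unfold cpoly
    rw [Polynomial.derivative_add, Polynomial.derivative_C, zero_add]
  cases w with
  | zero => simp
  | succ n =>
    rw [h0, cpoly_logPoly_succ, Nat.add_sub_cancel, sub_sub_cancel]
    exact Dvd.intro_left _ rfl

theorem cpoly_coeff_zero (k : ℕ) (p : ℤ) (q w : ℕ) :
    (cpoly k p q w).coeff 0 = (k : ℂ) * (2 * Complex.I * p * (Nat.lcmUpto w : ℂ)) := by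
  rw [Polynomial.coeff_zero_eq_eval_zero]
  unfold cpoly logPoly
  rw [Polynomial.eval_add, Polynomial.eval_C, Polynomial.eval_finsetSum, Finset.sum_eq_zero,
    add_zero]
  intro j _
  cases j with
  | zero => simp
  | succ j => simp

theorem cpoly_eval (k : ℕ) (p : ℤ) (q w : ℕ) (Y : ℂ) :
    (cpoly k p q w).eval Y =
      (k : ℂ) * (2 * Complex.I * p * (Nat.lcmUpto w : ℂ)) + (QQ q w : ℂ) * Complex.logTaylor w Y := by
  unfold cpoly logPoly Complex.logTaylor
  rw [Polynomial.eval_add, Polynomial.eval_C, Polynomial.eval_finsetSum, Finset.mul_sum]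
  congr 1
  refine Finset.sum_congr rfl fun j _ => ?_
  rw [Polynomial.eval_mul, Polynomial.eval_C, Polynomial.eval_pow, Polynomial.eval_X]
  ring

theorem cpoly_tau_monomial {m : ℕ} (c : Fin m → Polynomial ℂ) (a : Fin (m + 1) →₀ ℕ) :
    tau c (monomial a 1) =
      (1 + X 0) ^ a 0 * ∏ i : Fin m, (X i.succ + Polynomial.aeval (X 0) (c i)) ^ a i.succ := by
  rw [monomial_eq, C_1, one_mul, Finsupp.prod_fintype _ _ (fun _ => pow_zero _), map_prod,
    Fin.prod_univ_succ]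
  simp only [map_pow, tau_X_zero, tau_X_succ]

/-- The entries of the interpolation matrix are Gaussian integers. -/
theorem coeff_tau_gauss {m : ℕ} (k : ℕ) (p : Fin m → ℤ) (q w : Fin m → ℕ)
    (a α : Fin (m + 1) →₀ ℕ) :
    ∃ z : GaussianInt,
      coeff α (tau (fun i => cpoly k (p i) (q i) (w i)) (monomial a 1)) = (z : ℂ) := by
  let S : Subring (MvPolynomial (Fin (m + 1)) ℂ) :=
    (MvPolynomial.map (σ := Fin (m + 1)) GaussianInt.toComplex).range
  have hX : ∀ i, (X i : MvPolynomial (Fin (m + 1)) ℂ) ∈ S := fun i => ⟨X i, map_X _ i⟩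
  have hC : ∀ z : GaussianInt, (C (z : ℂ) : MvPolynomial (Fin (m + 1)) ℂ) ∈ S :=
    fun z => ⟨C z, map_C _ z⟩
  have hc : ∀ i, Polynomial.aeval (X 0 : MvPolynomial (Fin (m + 1)) ℂ)
      (cpoly k (p i) (q i) (w i)) ∈ S := by
    intro i
    unfold cpoly logPoly
    rw [map_add, map_sum, Polynomial.aeval_C, algebraMap_eq]
    refine add_mem ?_ (sum_mem fun j hj => ?_)
    · have e : (k : ℂ) * (2 * Complex.I * p i * (Nat.lcmUpto (w i) : ℂ)) =
          ((⟨0, k * (2 * p i * (Nat.lcmUpto (w i) : ℤ))⟩ : GaussianInt) : ℂ) := by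
        rw [GaussianInt.toComplex_def']
        push_cast
        ring
      rw [e]
      exact hC _
    · rw [map_mul, map_pow, Polynomial.aeval_X, Polynomial.aeval_C, algebraMap_eq]
      refine mul_mem ?_ (pow_mem (hX 0) j)
      rcases Nat.eq_zero_or_pos j with rfl | hj0
      · simp
      · have hd : j ∣ Nat.lcmUpto (w i) :=
          Finset.dvd_lcm (f := id) (Finset.mem_Icc.2 ⟨hj0, (Finset.mem_range.1 hj).le⟩)
        obtain ⟨t, ht⟩ := hd
        have hj' : (j : ℂ) ≠ 0 := Nat.cast_ne_zero.2 hj0.ne'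
        have e : ((QQ (q i) (w i) : ℕ) : ℂ) * (-1) ^ (j + 1) / (j : ℂ) =
            ((⟨(q i : ℤ) * t * (-1) ^ (j + 1), 0⟩ : GaussianInt) : ℂ) := by
          rw [GaussianInt.toComplex_def', QQ, ht]
          push_cast
          field_simp
          ring
        rw [e]
        exact hC _
  have h : tau (fun i => cpoly k (p i) (q i) (w i)) (monomial a 1) ∈ S := by
    rw [cpoly_tau_monomial]
    exact mul_mem (pow_mem (add_mem (one_mem _) (hX 0)) _)
      (prod_mem fun i _ => pow_mem (add_mem (hX _) (hc i)) _)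
  obtain ⟨f, hf⟩ := h
  exact ⟨coeff α f, by rw [← hf, coeff_map]⟩

theorem eval_tau_monomial {m : ℕ} (c : Fin m → Polynomial ℂ) (P : Fin (m + 1) → ℂ)
    (a : Fin (m + 1) →₀ ℕ) :
    eval P (tau c (monomial a 1)) =
      (1 + P 0) ^ a 0 * ∏ i : Fin m, (P i.succ + (c i).eval (P 0)) ^ a i.succ := by
  have h : ∀ f : Polynomial ℂ,
      eval P (Polynomial.aeval (X 0 : MvPolynomial (Fin (m + 1)) ℂ) f) = f.eval (P 0) := by
    intro f
    induction f using Polynomial.induction_on' with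
    | add f g hf hg => simp only [map_add, Polynomial.eval_add, hf, hg]
    | monomial n a => simp [Polynomial.aeval_monomial]
  rw [cpoly_tau_monomial]
  simp only [map_mul, map_pow, map_add, map_one, eval_X, map_prod, h]

theorem lcm_bound (w : ℕ) : (Nat.lcmUpto w : ℝ) ≤ Real.exp ((Real.log 4 + 4) * w) := by
  have h1 := Chebyshev.psi_le_const_mul_self (x := (w : ℝ)) (Nat.cast_nonneg w)
  rw [Chebyshev.psi_eq_log_lcmUpto] at h1
  have h2 : (0 : ℝ) < Nat.lcmUpto w := Nat.cast_pos.2 (Nat.lcmUpto_pos w)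
  exact (Real.log_le_iff_le_exp h2).1 h1

/-- Choice of the approximations with rapidly increasing weights. -/
theorem select (ν : ℝ)
    (hneg : ∀ Q : ℕ, ∃ (p : ℤ) (q : ℕ), Q ≤ q ∧ |Real.pi - (p : ℝ) / (q : ℝ)| < 1 / (q : ℝ) ^ ν)
    (g : ℝ) (hg : 1 ≤ g) (B C : ℕ) :
    ∃ (p : ℕ → ℤ) (q ω : ℕ → ℕ),
      (∀ i, B < ω i ∧ Real.exp ((g - 1) * ω i) ≤ q i ∧ (q i : ℝ) ≤ Real.exp (g * ω i) ∧
        |Real.pi - (p i : ℝ) / (q i : ℝ)| < 1 / (q i : ℝ) ^ ν) ∧
      ∀ l i, l < i → C * ω l < ω i := by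
  have hg0 : 0 < g := by linarith
  have step : ∀ T : ℕ, ∃ (p : ℤ) (q ω : ℕ), T < ω ∧ Real.exp ((g - 1) * ω) ≤ q ∧
      (q : ℝ) ≤ Real.exp (g * ω) ∧ |Real.pi - (p : ℝ) / (q : ℝ)| < 1 / (q : ℝ) ^ ν := by
    intro T
    obtain ⟨p, q, hq, hpq⟩ := hneg ⌈Real.exp (g * (T + g))⌉₊
    have h1 : Real.exp (g * (T + g)) ≤ q := Nat.ceil_le.1 hq
    have hq0 : (0 : ℝ) < q := lt_of_lt_of_le (Real.exp_pos _) h1
    have h2 : g * (T + g) ≤ Real.log q := (Real.le_log_iff_exp_le hq0).2 h1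
    have h3 : (T : ℝ) + g ≤ Real.log q / g := by
      rw [le_div_iff₀ hg0]; linarith
    have hT : (0 : ℝ) ≤ T := Nat.cast_nonneg T
    have h4 : Real.log q / g ≤ ⌈Real.log q / g⌉₊ := Nat.le_ceil _
    have h5 : (⌈Real.log q / g⌉₊ : ℝ) < Real.log q / g + 1 := Nat.ceil_lt_add_one (by linarith)
    refine ⟨p, q, ⌈Real.log q / g⌉₊, ?_, ?_, ?_, hpq⟩
    · have : (T : ℝ) < ⌈Real.log q / g⌉₊ := by linarith
      exact_mod_cast this
    · refine (Real.le_log_iff_exp_le hq0).1 ?_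
      have h6 : ((⌈Real.log q / g⌉₊ : ℝ) - 1) * g < Real.log q := by
        rw [← lt_div_iff₀ hg0]; linarith
      nlinarith
    · refine (Real.log_le_iff_le_exp hq0).1 ?_
      rw [div_le_iff₀ hg0] at h4
      linarith
  choose p q ω h1 h2 h3 h4 using step
  let T : ℕ → ℕ := fun i => Nat.rec B (fun _ t => t + C * ω t) i
  have hs : ∀ i, T (i + 1) = T i + C * ω (T i) := fun _ => rfl
  have hm : Monotone T := monotone_nat_of_le_succ fun i => by rw [hs]; omega
  refine ⟨fun i => p (T i), fun i => q (T i), fun i => ω (T i), fun i => ⟨?_, h2 _, h3 _, h4 _⟩,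
    fun l i hli => ?_⟩
  · exact lt_of_le_of_lt (hm (Nat.zero_le i)) (h1 _)
  · have h5 := hm (Nat.succ_le_of_lt hli)
    rw [hs] at h5
    have h6 := h1 (T i)
    show C * ω (T l) < ω (T i)
    omega

end Crest.Agent.R11
end

-- ▼ part PVc/R11/Sizes
section

set_option autoImplicit false

namespace Crest.Agent.R11

/-- The numerical conditions on the sizes for one value of `n`. -/
def Sizes {m : ℕ} (K : ℕ) (w : Fin m → ℕ) (lamb e₁ e₂ : ℝ) (n s₁ s₂ s₃ T₀ : ℕ) (H : ℝ) : Prop :=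
  1 ≤ H ∧ (1 / 2 : ℝ) ^ T₀ ≤ Real.exp (-lamb) ^ s₃ ∧
  2 * (cnt w s₃ * (n + T₀ + 1)) < K * cnt w s₁ * s₂ ∧
  (((K * cnt w s₁ * s₂ : ℕ) : ℝ) * ((Real.exp (-lamb))⁻¹ ^ s₃ + 1)) ^
      (2 * (cnt w s₃ * (n + T₀ + 1))) ≤
    H ^ (K * cnt w s₁ * s₂ - 2 * (cnt w s₃ * (n + T₀ + 1))) ∧
  2 * ((K * cnt w s₁ * s₂ : ℕ) : ℝ) * H * Real.exp (e₂ * s₁ + lamb * s₂) *
    Real.exp ((e₁ + 1) * n) * Real.exp (-lamb) ^ s₃ < 1

end Crest.Agent.R11
end

-- ▼ part PVc/R11/Core
section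

set_option autoImplicit false

namespace Crest.Agent.R11
open MvPolynomial

theorem gauss_eq_zero (z : GaussianInt) (h : ‖(z : ℂ)‖ < 1) : (z : ℂ) = 0 := by
  have h1 : (z.norm : ℝ) < 1 := by
    rw [GaussianInt.intCast_real_norm, Complex.normSq_eq_norm_sq]
    nlinarith [norm_nonneg (z : ℂ)]
  have h2 : z.norm < 1 := by exact_mod_cast h1
  have h3 := GaussianInt.norm_nonneg z
  rw [GaussianInt.toComplex_eq_zero, ← GaussianInt.norm_eq_zero]
  omega

theorem norm_Z_le (K k : ℕ) (hk : k ≤ K) (Y : ℂ) (hY : ‖Y‖ ≤ 1 / 2) :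
    ‖(k : ℂ) * (2 * Real.pi * Complex.I) + Complex.log (1 + Y)‖ ≤ 7 * K + 1 := by
  refine (norm_add_le _ _).trans (add_le_add ?_ ?_)
  · have h1 : (k : ℝ) ≤ K := by exact_mod_cast hk
    have h2 := Real.pi_lt_d2
    simp only [norm_mul, Complex.norm_natCast, Complex.norm_ofNat, Complex.norm_real,
      Complex.norm_I, mul_one, Real.norm_eq_abs, abs_of_pos Real.pi_pos]
    nlinarith [Real.pi_pos, (Nat.cast_nonneg k : (0 : ℝ) ≤ k)]
  · have := Complex.norm_log_one_add_half_le_self hY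
    linarith

theorem norm_W_le (K k : ℕ) (hk : k ≤ K) (Y Xi : ℂ) (ϱ : ℝ) (hϱ : ϱ ≤ 1 / 2) (hY : ‖Y‖ = ϱ)
    (w Q : ℕ) (hw : 0 < w) (hQ : 0 < Q) (hX : ‖Xi‖ = Q * ϱ ^ w) (p : ℤ) (q : ℕ)
    (happ : 2 * |Real.pi - (p : ℝ) / (q : ℝ)| ≤ ϱ ^ w) :
    ‖Xi / Q + (k : ℂ) * (2 * Complex.I * ((p : ℂ) / q) - 2 * Real.pi * Complex.I) +
      (Complex.logTaylor w Y - Complex.log (1 + Y))‖ ≤ (K + 3) * ϱ ^ w := by
  have hϱ0 : 0 ≤ ϱ := hY ▸ norm_nonneg Y
  have hQ' : (0 : ℝ) < Q := by exact_mod_cast hQ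
  have h1 : ‖Xi / Q‖ = ϱ ^ w := by
    rw [norm_div, hX, Complex.norm_natCast]; field_simp
  have h2 : ‖(k : ℂ) * (2 * Complex.I * ((p : ℂ) / q) - 2 * Real.pi * Complex.I)‖ ≤ K * ϱ ^ w := by
    have : (2 * Complex.I * ((p : ℂ) / q) - 2 * Real.pi * Complex.I) =
        -(2 * Complex.I) * ((Real.pi - (p : ℝ) / (q : ℝ) : ℝ) : ℂ) := by push_cast; ring
    rw [this, norm_mul, norm_mul, Complex.norm_real, Real.norm_eq_abs, norm_neg, norm_mul,
      Complex.norm_I, Complex.norm_natCast, Complex.norm_ofNat, mul_one]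
    exact mul_le_mul (by exact_mod_cast hk) happ (by positivity) (Nat.cast_nonneg _)
  have h3 : ‖Complex.logTaylor w Y - Complex.log (1 + Y)‖ ≤ 2 * ϱ ^ w := by
    obtain ⟨w, rfl⟩ := Nat.exists_eq_succ_of_ne_zero hw.ne'
    rw [norm_sub_rev]
    refine (Complex.norm_log_sub_logTaylor_le w (by linarith)).trans ?_
    rw [hY]
    have h4 : (1 - ϱ)⁻¹ ≤ 2 := by
      rw [inv_le_comm₀ (by linarith) two_pos]; linarith
    have h5 : (0 : ℝ) ≤ (1 - ϱ)⁻¹ := inv_nonneg.2 (by linarith)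
    calc ϱ ^ (w + 1) * (1 - ϱ)⁻¹ / (w + 1) ≤ ϱ ^ (w + 1) * (1 - ϱ)⁻¹ :=
          div_le_self (by positivity) (by linarith [(Nat.cast_nonneg w : (0 : ℝ) ≤ w)])
      _ ≤ ϱ ^ (w + 1) * 2 := by gcongr
      _ = _ := by rw [Nat.succ_eq_add_one]; ring
  calc _ ≤ ‖Xi / Q‖ + ‖(k : ℂ) * (2 * Complex.I * ((p : ℂ) / q) - 2 * Real.pi * Complex.I)‖ +
        ‖Complex.logTaylor w Y - Complex.log (1 + Y)‖ := norm_add₃_le
    _ ≤ _ := by rw [h1]; linarith

/-- A nontrivial linear relation among the jets, valid for all polynomials of degree `≤ n`. -/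
theorem core {m K : ℕ} (ω : Fin (m + 1) → ℕ) (hω : ∀ i, 0 < ω i) (p : Fin m → ℤ) (q : Fin m → ℕ)
    (lamb e₁ e₂ : ℝ) (hl : 1 ≤ lamb) (he₁ : 0 ≤ e₁) (he₂ : 0 ≤ e₂) (hq : ∀ i, 0 < q i)
    (hQ1 : ∀ i, (QQ (q i) (ω i.succ) : ℝ) ≤ Real.exp (e₁ * ω i.succ))
    (hQ2 : ∀ i, Real.exp ((lamb - e₂) * ω i.succ) ≤ QQ (q i) (ω i.succ))
    (happ : ∀ i, 2 * |Real.pi - (p i : ℝ) / (q i : ℝ)| ≤ Real.exp (-lamb * ω i.succ))
    (hA1 : ∀ i : Fin m, 8 * K + 4 ≤ ω i.succ) (hA0 : 2 * (7 * K + 1) ≤ ω 0)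
    (n s₁ s₂ s₃ T₀ : ℕ) (H : ℝ)
    (hS : Sizes K (fun i : Fin m => ω i.succ) lamb e₁ e₂ n s₁ s₂ s₃ T₀ H) :
    ∃ (S : Finset (Fin K × (Fin (m + 1) →₀ ℕ))) (γ : Fin K × (Fin (m + 1) →₀ ℕ) → ℂ),
      (∀ b ∈ S, Finsupp.weight (vw ω) b.2 < s₁ + s₂) ∧ (∃ b ∈ S, γ b ≠ 0) ∧
      ∀ f ∈ Deg ω n, ∑ b ∈ S, γ b *
        coeff b.2 (tau (fun i => cpoly b.1 (p i) (q i) (ω i.succ)) f) = 0 := by
  classical
  obtain ⟨hH, hT, hcard, hpig, hfin⟩ := hS
  set w : Fin m → ℕ := fun i => ω i.succ with hwdef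
  have hw : ∀ i, 0 < w i := fun i => hω _
  set ϱ := Real.exp (-lamb) with hϱ
  have hϱ0 : 0 < ϱ := Real.exp_pos _
  have hϱ2 : ϱ ≤ 1 / 2 := by
    rw [hϱ, Real.exp_neg, inv_le_comm₀ (Real.exp_pos _) (by norm_num)]
    linarith [Real.add_one_le_exp lamb]
  have hϱw : ∀ j : ℕ, ϱ ^ j = Real.exp (-lamb * j) := fun j => by
    rw [hϱ, ← Real.exp_nat_mul, mul_comm]
  let Q : Fin m → ℕ := fun i => QQ (q i) (w i)
  have hQpos : ∀ i, 0 < Q i := fun i => Nat.mul_pos (hq i) (Nat.lcmUpto_pos _)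
  let T : Finset (Fin m →₀ ℕ) := (cnt_finite hw s₁).toFinset
  have hTcard : T.card = cnt w s₁ := (Set.ncard_eq_toFinset_card _ (cnt_finite hw s₁)).symm
  have hTmem : ∀ I : T, Finsupp.weight w I.1 ≤ s₁ := fun I =>
    (Set.Finite.mem_toFinset (cnt_finite hw s₁)).1 I.2
  have hβ : Fintype.card (Fin K × T × Fin s₂) = K * cnt w s₁ * s₂ := by
    simp [hTcard, mul_assoc]
  let α : Fin K × T × Fin s₂ → (Fin (m + 1) →₀ ℕ) := fun b => Finsupp.cons b.2.2 b.2.1
  let c : Fin K → Fin m → Polynomial ℂ := fun k i => cpoly k (p i) (q i) (ω i.succ)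
  let Rows : Finset (Fin (m + 1) →₀ ℕ) := (cnt_finite hω n).toFinset
  obtain ⟨N₁, hN₁⟩ := Finite.exists_le (fun x : Fin K × Rows × Fin (m + 1) =>
    degreeOf x.2.2 (tau (c x.1) (monomial x.2.1 1)))
  obtain ⟨N₂, hN₂⟩ := Finite.exists_le (fun x : (Fin K × T × Fin s₂) × Fin (m + 1) => α x.1 x.2)
  let ρ : Fin (m + 1) → ℝ := Fin.cons ϱ (fun i => Q i * ϱ ^ w i)
  have hρ : ∀ i, 0 < ρ i := by
    intro i
    refine Fin.cases ?_ (fun j => ?_) i
    · exact hϱ0
    · exact mul_pos (by exact_mod_cast hQpos j) (pow_pos hϱ0 _)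
  obtain ⟨P, lam, hP, hlam, hext⟩ := extract ρ hρ (N₁ + N₂ + 1) (Nat.succ_pos _)
  have hP0 : ∀ s, ‖P s 0‖ = ϱ := fun s => hP s 0
  have hPs : ∀ s (i : Fin m), ‖P s i.succ‖ = Q i * ϱ ^ w i := fun s i => hP s i.succ
  let Z : (Fin K × T × Fin s₂) → (Fin (m + 1) → Fin (N₁ + N₂ + 1)) → ℂ :=
    fun b s => ((b.1 : ℕ) : ℂ) * (2 * Real.pi * Complex.I) + Complex.log (1 + P s 0)
  let W : (Fin K × T × Fin s₂) → (Fin (m + 1) → Fin (N₁ + N₂ + 1)) → Fin m → ℂ :=
    fun b s i => P s i.succ / Q i +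
      ((b.1 : ℕ) : ℂ) * (2 * Complex.I * ((p i : ℂ) / q i) - 2 * Real.pi * Complex.I) +
      (Complex.logTaylor (w i) (P s 0) - Complex.log (1 + P s 0))
  have hB : ∀ b, ∑ s, ‖lam (α b) s‖ ≤ Real.exp (e₂ * s₁ + lamb * s₂) := by
    intro b
    refine (hlam _).trans ?_
    rw [Fin.prod_univ_succ, Real.exp_add, mul_comm]
    refine mul_le_mul ?_ ?_ (by positivity) (Real.exp_pos _).le
    · have h1 : ∀ i : Fin m, (ρ i.succ)⁻¹ ^ α b i.succ ≤ Real.exp (e₂ * (b.2.1.1 i * w i : ℕ)) := by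
        intro i
        have h2 : (ρ i.succ)⁻¹ ≤ Real.exp (e₂ * w i) := by
          rw [inv_le_comm₀ (hρ _) (Real.exp_pos _), ← Real.exp_neg]
          change _ ≤ (Q i : ℝ) * ϱ ^ w i
          rw [hϱw]
          refine le_trans (le_of_eq ?_) (mul_le_mul_of_nonneg_right (hQ2 i) (Real.exp_pos _).le)
          rw [← Real.exp_add]; congr 1; simp only [hwdef]; ring
        calc (ρ i.succ)⁻¹ ^ α b i.succ ≤ Real.exp (e₂ * w i) ^ α b i.succ :=
              pow_le_pow_left₀ (inv_nonneg.2 (hρ _).le) h2 _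
          _ = _ := by
              rw [← Real.exp_nat_mul]; congr 1; simp only [α, Finsupp.cons_succ]; push_cast; ring
      refine (Finset.prod_le_prod (fun i _ => by have := hρ i.succ; positivity)
        (fun i _ => h1 i)).trans ?_
      rw [← Real.exp_sum, ← Finset.mul_sum, ← Nat.cast_sum, ← weight_eq_sum]
      exact Real.exp_le_exp.2 (mul_le_mul_of_nonneg_left (by exact_mod_cast hTmem _) he₂)
    · change ϱ⁻¹ ^ (b.2.2 : ℕ) ≤ _
      rw [inv_pow, hϱw, ← Real.exp_neg, Real.exp_le_exp]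
      have : ((b.2.2 : ℕ) : ℝ) ≤ s₂ := by exact_mod_cast b.2.2.2.le
      nlinarith
  obtain ⟨cc, hcc, hbound⟩ := analytic (fun b s => lam (α b) s) Z W w hw
    (Real.exp (e₂ * s₁ + lamb * s₂)) (7 * K + 1) (K + 3) ϱ H s₃ T₀ n (Real.exp_pos _)
    (by linarith [(Nat.cast_nonneg K : (0 : ℝ) ≤ K)])
    (by linarith [(Nat.cast_nonneg K : (0 : ℝ) ≤ K)]) hϱ0 (by linarith) hH hB
    (fun b s => norm_Z_le K _ b.1.2.le _ ((hP0 s).le.trans hϱ2))
    (fun b s i => norm_W_le K _ b.1.2.le _ _ ϱ hϱ2 (hP0 s) (w i) (Q i) (hw i) (hQpos i) (hPs s i)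
      (p i) (q i) (by rw [hϱw]; exact happ i))
    hT (by rw [hβ]; exact hcard) (by rw [hβ]; exact hpig)
  -- the value on a row
  have hrow : ∀ a : Fin (m + 1) →₀ ℕ, Finsupp.weight ω a ≤ n →
      ∑ b, (cc b : ℂ) * coeff (α b) (tau (c b.1) (monomial a 1)) = 0 := by
    intro a ha
    have haR : a ∈ Rows := by simpa [Rows] using ha
    have hwa : a 0 * ω 0 + ∑ i : Fin m, a i.succ * w i ≤ n := by
      rwa [weight_eq_sum, Fin.sum_univ_succ] at ha
    have hsum : ∑ i : Fin m, a i.succ ≤ ∑ i : Fin m, a i.succ * w i :=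
      Finset.sum_le_sum fun i _ => Nat.le_mul_of_pos_right _ (hw i)
    have heq : ∑ b, (cc b : ℂ) * coeff (α b) (tau (c b.1) (monomial a 1)) =
        (∏ i : Fin m, (Q i : ℂ) ^ a i.succ) * ∑ b, (cc b : ℂ) * ∑ s, lam (α b) s *
          ((∏ i, (Z b s + W b s i) ^ a i.succ) * Complex.exp (a 0 * Z b s)) := by
      rw [Finset.mul_sum]
      refine Finset.sum_congr rfl fun b _ => ?_
      rw [hext _ (fun i => lt_of_le_of_lt (hN₁ (b.1, ⟨a, haR⟩, i)) (by omega)) _
        (fun i => lt_of_le_of_lt (hN₂ (b, i)) (by omega)), mul_left_comm]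
      congr 1
      rw [Finset.mul_sum]
      refine Finset.sum_congr rfl fun s _ => ?_
      have hne : 1 + P s 0 ≠ 0 := by
        intro h
        have h1 : P s 0 = -1 := by linear_combination h
        have h2 := hP0 s
        rw [h1] at h2
        simp at h2
        linarith
      have h1 : Complex.exp (a 0 * Z b s) = (1 + P s 0) ^ a 0 := by
        rw [Complex.exp_nat_mul]
        simp only [Z]
        rw [Complex.exp_add, Complex.exp_log hne, Complex.exp_nat_mul_two_pi_mul_I, one_mul]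
      have h2 : ∀ i : Fin m, P s i.succ + (c b.1 i).eval (P s 0) = Q i * (Z b s + W b s i) := by
        intro i
        have hq' : (q i : ℂ) ≠ 0 := by exact_mod_cast (hq i).ne'
        have hL : (Nat.lcmUpto (w i) : ℂ) ≠ 0 := by exact_mod_cast Nat.lcmUpto_ne_zero _
        simp only [c, cpoly_eval, Z, W, Q, QQ, hwdef] at hL ⊢
        push_cast
        field_simp
        ring
      rw [eval_tau_monomial, h1]
      simp_rw [h2, mul_pow, Finset.prod_mul_distrib]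
      ring
    choose z hz using fun b : Fin K × T × Fin s₂ =>
      coeff_tau_gauss (b.1 : ℕ) p q (fun i => ω i.succ) a (α b)
    have hgauss : ∑ b, (cc b : ℂ) * coeff (α b) (tau (c b.1) (monomial a 1)) =
        ((∑ b, (cc b : GaussianInt) * z b : GaussianInt) : ℂ) := by
      rw [map_sum]
      refine Finset.sum_congr rfl fun b _ => ?_
      rw [map_mul, map_intCast, ← hz b]
    rw [hgauss]
    refine gauss_eq_zero _ ?_
    rw [← hgauss, heq, norm_mul]
    refine lt_of_le_of_lt ?_ hfin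
    have h1 := hbound (fun i => a i.succ) (a 0) (by omega)
    rw [hβ] at h1
    have h2 : ‖∏ i : Fin m, (Q i : ℂ) ^ a i.succ‖ ≤
        Real.exp (e₁ * (∑ i : Fin m, a i.succ * w i : ℕ)) := by
      rw [norm_prod, Nat.cast_sum, Finset.mul_sum, Real.exp_sum]
      refine Finset.prod_le_prod (fun i _ => norm_nonneg _) fun i _ => ?_
      rw [norm_pow, Complex.norm_natCast]
      calc (Q i : ℝ) ^ a i.succ ≤ Real.exp (e₁ * w i) ^ a i.succ :=
            pow_le_pow_left₀ (Nat.cast_nonneg _) (hQ1 i) _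
        _ = _ := by rw [← Real.exp_nat_mul]; congr 1; push_cast; ring
    have h3 : ((K : ℝ) + 3 + (7 * K + 1)) ^ (∑ i : Fin m, a i.succ) ≤
        Real.exp (∑ i : Fin m, a i.succ * w i : ℕ) := by
      rw [← Finset.prod_pow_eq_pow_sum, Nat.cast_sum, Real.exp_sum]
      refine Finset.prod_le_prod (fun i _ => by positivity) fun i _ => ?_
      have h4 : (K : ℝ) + 3 + (7 * K + 1) ≤ Real.exp (w i) := by
        have h5 : ((8 * K + 4 : ℕ) : ℝ) ≤ w i := by exact_mod_cast hA1 i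
        push_cast at h5
        linarith [Real.add_one_le_exp (w i : ℝ)]
      calc _ ≤ Real.exp (w i) ^ a i.succ := pow_le_pow_left₀ (by positivity) h4 _
        _ = _ := by rw [← Real.exp_nat_mul]; push_cast; rfl
    have h4 : Real.exp (2 * (a 0 : ℝ) * (7 * K + 1)) ≤ Real.exp (a 0 * ω 0 : ℕ) := by
      have h5 : ((2 * (7 * K + 1) : ℕ) : ℝ) ≤ ω 0 := by exact_mod_cast hA0
      push_cast at h5 ⊢
      exact Real.exp_le_exp.2 (by nlinarith [(Nat.cast_nonneg (a 0) : (0 : ℝ) ≤ a 0)])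
    have h5 : Real.exp (e₁ * (∑ i : Fin m, a i.succ * w i : ℕ)) *
        (Real.exp (∑ i : Fin m, a i.succ * w i : ℕ) * Real.exp (a 0 * ω 0 : ℕ)) ≤
        Real.exp ((e₁ + 1) * n) := by
      rw [← Real.exp_add, ← Real.exp_add, Real.exp_le_exp]
      have h6 : ((a 0 * ω 0 + ∑ i : Fin m, a i.succ * w i : ℕ) : ℝ) ≤ n := by exact_mod_cast hwa
      rw [Nat.cast_add] at h6
      have h7 : (0 : ℝ) ≤ (a 0 * ω 0 : ℕ) := Nat.cast_nonneg _
      nlinarith
    have hH0 : 0 ≤ H := by linarith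
    calc _ ≤ Real.exp (e₁ * (∑ i : Fin m, a i.succ * w i : ℕ)) *
          (2 * ((K * cnt w s₁ * s₂ : ℕ) : ℝ) * H * Real.exp (e₂ * s₁ + lamb * s₂) *
            Real.exp (∑ i : Fin m, a i.succ * w i : ℕ) * Real.exp (a 0 * ω 0 : ℕ) * ϱ ^ s₃) := by
          refine mul_le_mul h2 (h1.trans ?_) (norm_nonneg _) (Real.exp_pos _).le
          gcongr
      _ = 2 * ((K * cnt w s₁ * s₂ : ℕ) : ℝ) * H * Real.exp (e₂ * s₁ + lamb * s₂) *
          (Real.exp (e₁ * (∑ i : Fin m, a i.succ * w i : ℕ)) *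
            (Real.exp (∑ i : Fin m, a i.succ * w i : ℕ) * Real.exp (a 0 * ω 0 : ℕ))) * ϱ ^ s₃ := by
          ring
      _ ≤ _ := by gcongr
  let φ : Fin K × T × Fin s₂ → Fin K × (Fin (m + 1) →₀ ℕ) := fun b => (b.1, α b)
  have hφ : Function.Injective φ := by
    rintro ⟨k, I, t⟩ ⟨k', I', t'⟩ h
    simp only [φ, α, Prod.mk.injEq] at h
    obtain ⟨h1, h2⟩ := Finsupp.cons_injective2 h.2
    exact Prod.ext h.1 (Prod.ext (Subtype.ext h2) (Fin.ext h1))
  refine ⟨Finset.univ.image φ, Function.extend φ (fun b => (cc b : ℂ)) 0, ?_, ?_, ?_⟩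
  · intro x hx
    obtain ⟨b, -, rfl⟩ := Finset.mem_image.1 hx
    have h1 := hTmem b.2.1
    have h2 := b.2.2.2
    rw [weight_eq_sum] at h1 ⊢
    simp only [φ, α, Fin.sum_univ_succ, Finsupp.cons_zero, Finsupp.cons_succ, vw_zero, vw_succ]
    simp only [hwdef] at h1
    omega
  · obtain ⟨b, hb⟩ := Function.ne_iff.1 hcc
    refine ⟨φ b, Finset.mem_image_of_mem _ (Finset.mem_univ _), ?_⟩
    rw [hφ.extend_apply]
    exact_mod_cast hb
  · intro f hf
    rw [Finset.sum_image (fun _ _ _ _ h => hφ h)]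
    simp only [hφ.extend_apply]
    rw [Deg_eq_span] at hf
    induction hf using Submodule.span_induction with
    | mem f hf =>
      obtain ⟨a, ha, rfl⟩ := hf
      exact hrow a ha
    | zero => simp
    | add f g _ _ hf hg =>
      simp only [map_add, coeff_add, mul_add, Finset.sum_add_distrib, hf, hg, add_zero]
    | smul r f _ hf =>
      simp only [map_smul, coeff_smul, smul_eq_mul, mul_left_comm _ r, ← Finset.mul_sum, hf,
        mul_zero]

end Crest.Agent.R11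
end

-- ▼ part PVc/R11/Asym
section

set_option autoImplicit false

namespace Crest.Agent.R11
open MvPolynomial Filter Topology

theorem asym_poly_le_exp (C : ℝ) (k : ℕ) {δ : ℝ} (hδ : 0 < δ) :
    ∀ᶠ n : ℕ in atTop, C * (n : ℝ) ^ k ≤ Real.exp (δ * n) := by
  have h := (isLittleO_pow_exp_pos_mul_atTop k hδ).const_mul_left C
  have h2 := tendsto_natCast_atTop_atTop (R := ℝ) |>.eventually (h.bound one_pos)
  filter_upwards [h2] with n hn
  rw [one_mul, Real.norm_of_nonneg (Real.exp_pos _).le] at hn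
  exact (le_abs_self _).trans hn

theorem asym_lin (C : ℝ) {δ : ℝ} (hδ : 0 < δ) : ∀ᶠ n : ℕ in atTop, C < δ * n :=
  (Tendsto.const_mul_atTop hδ (tendsto_natCast_atTop_atTop (R := ℝ))).eventually_gt_atTop C

theorem asym_ratio (m : ℕ) {K W c a ε x₁ x₂ : ℝ}
    (h : 2 * c * (x₁ ^ m * (1 + 2 * a)) < K * (x₂ ^ m * ε)) :
    ∀ᶠ n : ℕ in atTop,
      2 * c * ((x₁ * n + W) ^ m * (n + 2 * a * n + 2)) < K * ((x₂ * n) ^ m * (ε * n - 1)) := by
  have h0 : Tendsto (fun n : ℕ => ((n : ℝ))⁻¹) atTop (𝓝 0) := tendsto_inv_atTop_nhds_zero_nat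
  have h1 : Tendsto (fun n : ℕ => 2 * c * ((x₁ + W * (n : ℝ)⁻¹) ^ m * (1 + 2 * a + 2 * (n : ℝ)⁻¹)))
      atTop (𝓝 (2 * c * ((x₁ + W * 0) ^ m * (1 + 2 * a + 2 * 0)))) :=
    (((h0.const_mul W).const_add x₁).pow m |>.mul ((h0.const_mul 2).const_add _)).const_mul _
  have h2 : Tendsto (fun n : ℕ => K * (x₂ ^ m * (ε - (n : ℝ)⁻¹))) atTop
      (𝓝 (K * (x₂ ^ m * (ε - 0)))) := ((h0.const_sub ε).const_mul _).const_mul _
  have h3 := h1.eventually_lt h2 (by simpa using h)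
  filter_upwards [h3, eventually_gt_atTop 0] with n hn hn0
  have hn' : (0 : ℝ) < n := by exact_mod_cast hn0
  have e1 : x₁ * n + W = (x₁ + W * (n : ℝ)⁻¹) * n := by field_simp
  have e2 : (n : ℝ) + 2 * a * n + 2 = (1 + 2 * a + 2 * (n : ℝ)⁻¹) * n := by field_simp
  have e3 : ε * n - 1 = (ε - (n : ℝ)⁻¹) * n := by field_simp
  rw [e1, e2, e3, mul_pow, mul_pow]
  have := mul_lt_mul_of_pos_right hn (show (0 : ℝ) < (n : ℝ) ^ m * n by positivity)
  calc _ = 2 * c * ((x₁ + W * (n : ℝ)⁻¹) ^ m * (1 + 2 * a + 2 * (n : ℝ)⁻¹)) * ((n : ℝ) ^ m * n) := by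
        ring
    _ < _ := this
    _ = _ := by ring

/-- The sizes exist for all large `n`. -/
theorem asym {m K : ℕ} (w : Fin m → ℕ) (hw : ∀ i, 0 < w i) (lamb e₁ e₂ ε x₁ x₂ : ℝ)
    (hl : 1 ≤ lamb) (hε : 0 < ε) (hx₁ : 0 < x₁) (hx₂ : 0 < x₂) (he₂ : 0 ≤ e₂)
    (hA1 : 2 + e₁ + x₂ * e₂ + lamb * ε - lamb * x₁ < 0)
    (hA2 : (2 + 2 * lamb * x₁) * (1 + 2 * lamb * x₁) * x₁ ^ m < K * ε * x₂ ^ m) :
    ∃ N : ℕ, ∀ n : ℕ, N ≤ n → ∃ (s₁ s₂ s₃ T₀ : ℕ) (H : ℝ),
      ((s₁ + s₂ : ℕ) : ℝ) ≤ (x₂ + ε) * n ∧ Sizes K w lamb e₁ e₂ n s₁ s₂ s₃ T₀ H := by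
  have hl0 : 0 < lamb := by linarith
  set a : ℝ := lamb * x₁ with ha
  have ha0 : 0 < a := by positivity
  have hB : 0 < 2 * (x₁ ^ m * (1 + 2 * a)) := by positivity
  obtain ⟨c, hc1, hc2⟩ : ∃ c, 1 + a < c ∧
      c < K * (x₂ ^ m * ε) / (2 * (x₁ ^ m * (1 + 2 * a))) := by
    refine exists_between ?_
    rw [lt_div_iff₀ hB]
    calc _ = (2 + 2 * lamb * x₁) * (1 + 2 * lamb * x₁) * x₁ ^ m := by rw [ha]; ring
      _ < _ := hA2
      _ = _ := by ring
  rw [lt_div_iff₀ hB] at hc2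
  set γ : ℝ := -(2 + e₁ + x₂ * e₂ + lamb * ε - lamb * x₁) with hγ
  have hγ0 : 0 < γ := by linarith
  set δ : ℝ := min ((c - 1 - a) / 2) (γ / 2) with hδ
  have hδ0 : 0 < δ := lt_min (by linarith) (by linarith)
  have hδ1 : δ ≤ (c - 1 - a) / 2 := min_le_left _ _
  have hδ2 : δ ≤ γ / 2 := min_le_right _ _
  set W : ℝ := ((∑ i, w i : ℕ) : ℝ) with hW
  have hW0 : 0 ≤ W := Nat.cast_nonneg _
  set D : ℕ := m.factorial * ∏ i, w i with hD
  have hD1 : (1 : ℝ) ≤ D := by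
    have : 0 < D := Nat.mul_pos m.factorial_pos (Finset.prod_pos fun i _ => hw i)
    exact_mod_cast this
  have hlow : ∀ s : ℕ, ((s : ℝ) + 1) ^ m ≤ D * cnt w s := fun s => by
    have := cnt_lower hw s
    rw [Fintype.card_fin] at this
    exact_mod_cast this
  have hup : ∀ s : ℕ, (D : ℝ) * cnt w s ≤ ((s : ℝ) + W) ^ m := fun s => by
    have := cnt_upper hw s
    rw [Fintype.card_fin] at this
    rw [hW]
    exact_mod_cast this
  have E1 := asym_ratio m (K := K) (W := W) (c := c) (a := a) (ε := ε) (x₁ := x₁) (x₂ := x₂)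
    (by linarith)
  have E2 := asym_poly_le_exp (K * (x₂ + W) ^ m * ε) (m + 1) hδ0
  have E3 := asym_lin 1 hδ0
  have E4 := asym_lin (1 + lamb) hδ0
  obtain ⟨N, hN⟩ := eventually_atTop.1 (E1.and (E2.and (E3.and (E4.and (eventually_ge_atTop 1)))))
  refine ⟨N, fun n hn => ?_⟩
  obtain ⟨h1, h2, h3, h4, hn1⟩ := hN n hn
  have hn1' : (1 : ℝ) ≤ n := by exact_mod_cast hn1
  set s₁ := ⌊x₂ * n⌋₊ with hs₁
  set s₂ := ⌊ε * n⌋₊ with hs₂
  set s₃ := ⌊x₁ * n⌋₊ with hs₃
  set T₀ := ⌈2 * a * n⌉₊ with hT₀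
  have s₁u : (s₁ : ℝ) ≤ x₂ * n := Nat.floor_le (by positivity)
  have s₁l : x₂ * n < s₁ + 1 := Nat.lt_floor_add_one _
  have s₂u : (s₂ : ℝ) ≤ ε * n := Nat.floor_le (by positivity)
  have s₂l : ε * n < s₂ + 1 := Nat.lt_floor_add_one _
  have s₃u : (s₃ : ℝ) ≤ x₁ * n := Nat.floor_le (by positivity)
  have s₃l : x₁ * n < s₃ + 1 := Nat.lt_floor_add_one _
  have T₀l : 2 * a * n ≤ T₀ := Nat.le_ceil _
  have T₀u : (T₀ : ℝ) < 2 * a * n + 1 := Nat.ceil_lt_add_one (by positivity)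
  set U : ℕ := K * cnt w s₁ * s₂ with hU
  set M : ℕ := cnt w s₃ * (n + T₀ + 1) with hM
  have hK0 : (0 : ℝ) ≤ K := Nat.cast_nonneg K
  have hU0 : (0 : ℝ) ≤ U := Nat.cast_nonneg U
  have hM0 : (0 : ℝ) ≤ M := Nat.cast_nonneg M
  have hs₂0 : (0 : ℝ) ≤ s₂ := Nat.cast_nonneg _
  have hDU : (D : ℝ) * U = K * ((D * cnt w s₁) * s₂) := by rw [hU]; push_cast; ring
  have hDM : (D : ℝ) * M = (D * cnt w s₃) * (n + T₀ + 1) := by rw [hM]; push_cast; ring
  have hUl : K * ((x₂ * n) ^ m * (ε * n - 1)) ≤ (D : ℝ) * U := by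
    rw [hDU]
    refine mul_le_mul_of_nonneg_left ?_ hK0
    calc (x₂ * n) ^ m * (ε * n - 1) ≤ (x₂ * n) ^ m * s₂ :=
          mul_le_mul_of_nonneg_left (by linarith) (by positivity)
      _ ≤ _ := mul_le_mul_of_nonneg_right
          ((pow_le_pow_left₀ (by positivity) s₁l.le m).trans (hlow s₁)) hs₂0
  have hUu : (U : ℝ) ≤ Real.exp (δ * n) := by
    refine le_trans ?_ h2
    calc (U : ℝ) ≤ D * U := le_mul_of_one_le_left hU0 hD1
      _ = _ := hDU
      _ ≤ K * (((x₂ + W) * n) ^ m * (ε * n)) := by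
          refine mul_le_mul_of_nonneg_left ?_ hK0
          refine mul_le_mul ((hup s₁).trans (pow_le_pow_left₀ (by positivity) ?_ m)) s₂u hs₂0
            (by positivity)
          have b0 : W * 1 ≤ W * n := mul_le_mul_of_nonneg_left hn1' hW0
          linarith
      _ = _ := by rw [mul_pow, pow_succ]; ring
  have hMu : (D : ℝ) * M ≤ (x₁ * n + W) ^ m * (n + 2 * a * n + 2) := by
    rw [hDM]
    refine mul_le_mul ((hup s₃).trans (pow_le_pow_left₀ (by positivity) (by linarith) m))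
      (by linarith) (by positivity) (by positivity)
  have hc0 : 0 < c := by linarith
  have hUM : 2 * c * M < U := by
    have : (D : ℝ) * (2 * c * M) < D * U :=
      calc (D : ℝ) * (2 * c * M) = 2 * c * (D * M) := by ring
        _ ≤ _ := mul_le_mul_of_nonneg_left hMu (by positivity)
        _ < _ := h1
        _ ≤ _ := hUl
    exact lt_of_mul_lt_mul_left this (by linarith)
  have hcard : 2 * M < U := by
    have b0 : 1 * (M : ℝ) ≤ c * M := mul_le_mul_of_nonneg_right (by linarith) hM0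
    have : (2 : ℝ) * M < U := by linarith
    exact_mod_cast this
  have hls₃ : lamb * s₃ ≤ a * n := by
    rw [ha, mul_assoc]; exact mul_le_mul_of_nonneg_left s₃u hl0.le
  have hls₃' : a * n ≤ lamb * s₃ + lamb := by
    have := mul_le_mul_of_nonneg_left s₃l.le hl0.le
    rw [ha]; linarith
  have h2e : (2 : ℝ) ≤ Real.exp 1 := by
    have := Real.add_one_le_exp (1 : ℝ)
    linarith
  refine ⟨s₁, s₂, s₃, T₀, Real.exp n, by push_cast; linarith, Real.one_le_exp (by positivity),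
    ?_, hcard, ?_, ?_⟩
  · have hh : (1 / 2 : ℝ) ≤ Real.exp (-(1 / 2)) := by
      have := Real.add_one_le_exp (-(1 / 2) : ℝ)
      linarith
    refine (pow_le_pow_left₀ (by norm_num) hh T₀).trans ?_
    rw [← Real.exp_nat_mul, ← Real.exp_nat_mul]
    exact Real.exp_le_exp.2 (by linarith)
  · have e1 : (Real.exp (-lamb))⁻¹ ^ s₃ + 1 ≤ Real.exp (a * n + 1) := by
      rw [Real.exp_neg, inv_inv, ← Real.exp_nat_mul, Real.exp_add]
      have b1 : Real.exp (s₃ * lamb) ≤ Real.exp (a * n) := Real.exp_le_exp.2 (by linarith)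
      have b2 : 1 ≤ Real.exp (a * n) := Real.one_le_exp (by positivity)
      have b3 : Real.exp (a * n) * 2 ≤ Real.exp (a * n) * Real.exp 1 :=
        mul_le_mul_of_nonneg_left h2e (by positivity)
      linarith
    have e2 : (U : ℝ) * ((Real.exp (-lamb))⁻¹ ^ s₃ + 1) ≤ Real.exp (δ * n + (a * n + 1)) := by
      rw [Real.exp_add]
      exact mul_le_mul hUu e1 (by positivity) (by positivity)
    refine (pow_le_pow_left₀ (by positivity) e2 _).trans ?_
    rw [← Real.exp_nat_mul, ← Real.exp_nat_mul]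
    refine Real.exp_le_exp.2 ?_
    rw [Nat.cast_sub hcard.le, ← hM, Nat.cast_mul, Nat.cast_ofNat]
    have b0 : 2 * δ * n ≤ (c - 1 - a) * n :=
      mul_le_mul_of_nonneg_right (by linarith) (by positivity)
    have b1 : δ * n + (a * n + 1) ≤ (c - 1) * n := by linarith
    have b2 : 2 * (M : ℝ) * (δ * n + (a * n + 1)) ≤ 2 * M * ((c - 1) * n) :=
      mul_le_mul_of_nonneg_left b1 (by positivity)
    have b3 : 2 * c * M * n ≤ U * n := mul_le_mul_of_nonneg_right hUM.le (by positivity)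
    linarith
  · rw [← Real.exp_nat_mul]
    calc 2 * (U : ℝ) * Real.exp n * Real.exp (e₂ * s₁ + lamb * s₂) * Real.exp ((e₁ + 1) * n) *
          Real.exp (s₃ * -lamb)
        ≤ Real.exp 1 * Real.exp (δ * n) * Real.exp n * Real.exp (e₂ * s₁ + lamb * s₂) *
          Real.exp ((e₁ + 1) * n) * Real.exp (s₃ * -lamb) := by gcongr
      _ = Real.exp (1 + δ * n + n + (e₂ * s₁ + lamb * s₂) + (e₁ + 1) * n + s₃ * -lamb) := by
          simp only [Real.exp_add]
      _ < 1 := by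
          rw [Real.exp_lt_one_iff]
          have b1 : e₂ * s₁ ≤ e₂ * (x₂ * n) := mul_le_mul_of_nonneg_left s₁u he₂
          have b2 : lamb * s₂ ≤ lamb * (ε * n) := mul_le_mul_of_nonneg_left s₂u hl0.le
          have b3 : 2 * δ * n ≤ γ * n := mul_le_mul_of_nonneg_right (by linarith) (by positivity)
          have b4 : γ * n = -(2 * n + e₁ * n + e₂ * (x₂ * n) + lamb * (ε * n) - a * n) := by
            rw [hγ]; ring
          linarith

end Crest.Agent.R11
end

-- ▼ part PVc/R11/Params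
section

set_option autoImplicit false

namespace Crest.Agent.R11
open MvPolynomial

theorem params_exists_m {r A : ℝ} (hr0 : 0 ≤ r) (hr : r < 1) :
    ∃ m : ℕ, 0 < m ∧ A * ((m + 1) * r ^ m) < 1 := by
  have h1 := tendsto_self_mul_const_pow_of_lt_one hr0 hr
  have h2 := tendsto_pow_atTop_nhds_zero_of_lt_one hr0 hr
  have h3 : Filter.Tendsto (fun m : ℕ => A * ((m + 1) * r ^ m)) Filter.atTop (nhds 0) := by
    have := (h1.add h2).const_mul A
    simp only [add_zero, mul_zero] at this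
    refine this.congr fun m => ?_
    ring
  obtain ⟨m, hm1, hm2⟩ :=
    ((h3.eventually (gt_mem_nhds one_pos)).and (Filter.eventually_gt_atTop 0)).exists
  exact ⟨m, hm2, hm1⟩

/-- The discrete parameters. -/
theorem params_disc {c ε x₁ x₂ : ℝ} (hc : 0 ≤ c) (hε : 0 < ε) (hx₂ : 0 < x₂) (h12 : x₂ ≤ x₁)
    (hy : x₂ + 3 * ε ≤ 1) (hr : x₁ ^ 2 * (x₂ + 3 * ε) < x₂ ^ 2) :
    ∃ m K Cst ω₀ : ℕ, 0 < m ∧ 1 ≤ Cst ∧ Cst < ω₀ ∧ 2 * (7 * K + 1) ≤ ω₀ ∧
      c * x₁ ^ m < K * ε * x₂ ^ m ∧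
      (K : ℝ) * ω₀ * (x₂ + 2 * ε + (m + 1) / Cst) ^ (m + 1) < 1 := by
  set b : ℝ := x₁ / x₂ with hb
  have hb1 : 1 ≤ b := (one_le_div hx₂).2 h12
  set y : ℝ := x₂ + 3 * ε with hydef
  have hy0 : 0 ≤ y := by positivity
  have hr1 : b ^ 2 * y < 1 := by
    rw [hb, div_pow, div_mul_eq_mul_div, div_lt_one (by positivity)]
    exact hr
  set C' : ℝ := c / ε with hC'
  have hC'0 : 0 ≤ C' := by positivity
  obtain ⟨m, hm0, hm⟩ := params_exists_m (A := (C' + 1) * (1 / ε + 4 + 14 * (C' + 1)))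
    (by positivity : 0 ≤ b ^ 2 * y) hr1
  have hbm : 1 ≤ b ^ m := one_le_pow₀ hb1
  have hm1 : (1 : ℝ) ≤ m + 1 := by linarith [(Nat.cast_nonneg m : (0 : ℝ) ≤ m)]
  have hq : (0 : ℝ) < (m + 1) / ε := by positivity
  have hCst1 : 1 ≤ ⌈((m : ℝ) + 1) / ε⌉₊ := Nat.one_le_iff_ne_zero.2 (Nat.ceil_pos.2 hq).ne'
  refine ⟨m, ⌊C' * b ^ m⌋₊ + 1, ⌈((m : ℝ) + 1) / ε⌉₊,
    ⌈((m : ℝ) + 1) / ε⌉₊ + 1 + 2 * (7 * (⌊C' * b ^ m⌋₊ + 1) + 1), hm0, hCst1, by omega, by omega,
    ?_, ?_⟩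
  · have h1 : C' * b ^ m < ((⌊C' * b ^ m⌋₊ + 1 : ℕ) : ℝ) := by
      push_cast
      exact Nat.lt_floor_add_one _
    have h2 : c * x₁ ^ m = C' * b ^ m * ε * x₂ ^ m := by
      rw [hC', hb, div_pow]
      field_simp
    rw [h2]
    gcongr
  · set K : ℕ := ⌊C' * b ^ m⌋₊ + 1 with hK
    set Cst : ℕ := ⌈((m : ℝ) + 1) / ε⌉₊ with hCst
    have hK1 : (K : ℝ) ≤ (C' + 1) * b ^ m := by
      have : (⌊C' * b ^ m⌋₊ : ℝ) ≤ C' * b ^ m := Nat.floor_le (by positivity)
      rw [hK]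
      push_cast
      nlinarith
    have hC1 : ((m : ℝ) + 1) / ε ≤ Cst := Nat.le_ceil _
    have hC2 : (Cst : ℝ) ≤ ((m : ℝ) + 1) / ε + 1 := (Nat.ceil_lt_add_one hq.le).le
    have hC0 : (0 : ℝ) < Cst := lt_of_lt_of_le hq hC1
    have hC3 : ((m : ℝ) + 1) / Cst ≤ ε := by
      rw [div_le_iff₀ hC0]
      rw [div_le_iff₀ hε] at hC1
      linarith
    have hω : ((Cst + 1 + 2 * (7 * K + 1) : ℕ) : ℝ) ≤
        (1 / ε + 4 + 14 * (C' + 1)) * ((m + 1) * b ^ m) := by
      push_cast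
      have hmb : (1 : ℝ) ≤ (m + 1) * b ^ m := one_le_mul_of_one_le_of_one_le hm1 hbm
      have e1 : ((m : ℝ) + 1) / ε ≤ 1 / ε * ((m + 1) * b ^ m) := by
        rw [div_eq_mul_one_div, mul_comm]
        gcongr
        exact le_mul_of_one_le_right (by positivity) hbm
      have e2 : (C' + 1) * b ^ m ≤ (C' + 1) * ((m + 1) * b ^ m) := by
        gcongr
        exact le_mul_of_one_le_left (by positivity) hm1
      nlinarith
    have hx : (x₂ + 2 * ε + (m + 1) / Cst) ^ (m + 1) ≤ y ^ m := by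
      calc (x₂ + 2 * ε + (m + 1) / Cst) ^ (m + 1) ≤ y ^ (m + 1) := by
            gcongr
            rw [hydef]
            linarith
        _ ≤ y ^ m := pow_le_pow_of_le_one hy0 hy (Nat.le_succ m)
    calc (K : ℝ) * ((Cst + 1 + 2 * (7 * K + 1) : ℕ) : ℝ) * (x₂ + 2 * ε + (m + 1) / Cst) ^ (m + 1)
        ≤ ((C' + 1) * b ^ m) * ((1 / ε + 4 + 14 * (C' + 1)) * ((m + 1) * b ^ m)) * y ^ m := by
          gcongr
      _ = (C' + 1) * (1 / ε + 4 + 14 * (C' + 1)) * ((m + 1) * (b ^ 2 * y) ^ m) := by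
          rw [mul_pow, ← pow_mul, two_mul, pow_add]
          ring
      _ < 1 := hm

/-- Choice of the real parameters. -/
theorem params (ν : ℝ) (hν : 2 < ν) (C₀ : ℝ) (hC₀ : 0 ≤ C₀) :
    ∃ (g lamb ε x₁ x₂ x : ℝ) (m K Cst ω₀ : ℕ),
      lamb = ν * (g - 1) - 1 ∧ 1 ≤ g ∧ 1 ≤ lamb ∧ 0 ≤ lamb - g + 1 ∧ 0 < ε ∧ 0 < x₁ ∧ 0 < x₂ ∧
      x₂ + ε < x ∧ x ≤ 1 ∧ 0 < m ∧ 1 ≤ Cst ∧ Cst < ω₀ ∧ 2 * (7 * K + 1) ≤ ω₀ ∧
      2 + (g + C₀) + x₂ * (lamb - g + 1) + lamb * ε - lamb * x₁ < 0 ∧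
      (2 + 2 * lamb * x₁) * (1 + 2 * lamb * x₁) * x₁ ^ m < K * ε * x₂ ^ m ∧
      (K : ℝ) * ω₀ * (x + (m + 1) / Cst) ^ (m + 1) < 1 := by
  have hν1 : 0 < ν - 1 := by linarith
  obtain ⟨u, hu1, hu2⟩ := exists_between (show 1 / (ν - 1) < 1 by
    rw [div_lt_one hν1]; linarith)
  have hu0 : 0 < u := lt_trans (by positivity) hu1
  have hu3 : 1 < (ν - 1) * u := by
    rw [div_lt_iff₀ hν1] at hu1
    linarith
  set s0 : ℝ := (1 - u) * ((ν - 1) * u - 1) with hs0
  have hs0pos : 0 < s0 := mul_pos (by linarith) (by linarith)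
  set ε : ℝ := min (s0 / (8 * ν)) (u * (1 - u) / 6) with hεdef
  have hε : 0 < ε := lt_min (by positivity) (by
    have := mul_pos hu0 (sub_pos.2 hu2)
    positivity)
  have hε1 : ε ≤ s0 / (8 * ν) := min_le_left _ _
  have hε2 : ε ≤ u * (1 - u) / 6 := min_le_right _ _
  have hε3 : ε * (8 * ν) ≤ s0 := (le_div_iff₀ (by positivity)).1 hε1
  -- the slope in `g`
  set s : ℝ := ν * u - 1 - (ν - 1) * (u ^ 2 + 3 * ε) - ν * ε with hs
  have hspos : 0 < s := by
    have : s = s0 - (4 * ν - 3) * ε := by rw [hs, hs0]; ring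
    nlinarith
  set c0 : ℝ := 2 + C₀ - (u ^ 2 + 3 * ε) * ν - (ν + 1) * (ε - u) with hc0
  set g : ℝ := max 2 (c0 / s + 1) with hg
  have hg2 : 2 ≤ g := le_max_left _ _
  have hg3 : c0 < g * s := by
    have : c0 / s < g := lt_of_lt_of_le (lt_add_one _) (le_max_right _ _)
    rwa [div_lt_iff₀ hspos] at this
  have hl : 1 ≤ ν * (g - 1) - 1 := by nlinarith
  obtain ⟨m, K, Cst, ω₀, h1, h2, h3, h4, h5, h6⟩ := params_disc
    (c := (2 + 2 * (ν * (g - 1) - 1) * u) * (1 + 2 * (ν * (g - 1) - 1) * u)) (ε := ε) (x₁ := u)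
    (x₂ := u ^ 2 + 3 * ε) (by positivity) hε (by positivity) (by nlinarith) (by nlinarith)
    (by nlinarith)
  refine ⟨g, ν * (g - 1) - 1, ε, u, u ^ 2 + 3 * ε, u ^ 2 + 3 * ε + 2 * ε, m, K, Cst, ω₀, rfl,
    by linarith, hl, by nlinarith, hε, hu0, by positivity, by linarith, by nlinarith, h1, h2, h3,
    h4, ?_, h5, h6⟩
  have : 2 + (g + C₀) + (u ^ 2 + 3 * ε) * (ν * (g - 1) - 1 - g + 1) + (ν * (g - 1) - 1) * ε -
      (ν * (g - 1) - 1) * u = c0 - g * s := by
    rw [hc0, hs]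
    ring
  rw [this]
  linarith

end Crest.Agent.R11
end

-- ▼ part PVc/R11/Main

set_option autoImplicit false

namespace Crest.Agent.R11
open MvPolynomial

theorem main (ν : ℝ) (hν : 2 < ν) :
    ∃ Q : ℕ, ∀ (p : ℤ) (q : ℕ), Q ≤ q → 1 / (q : ℝ) ^ ν ≤ |Real.pi - (p : ℝ) / (q : ℝ)| := by
  by_contra hcon
  push Not at hcon
  have hC₀ : (0 : ℝ) ≤ Real.log 4 + 4 := by positivity
  obtain ⟨g, lamb, ε, x₁, x₂, x, m, K, Cst, ω₀, hlamb, hg, hl, he₂, hε, hx₁, hx₂, hx, hx1, hm, hC,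
    hC0, hA0, hA1, hA2, hK⟩ := params ν hν _ hC₀
  obtain ⟨p, q, w, hpq, hw⟩ := select ν hcon g hg (Cst ^ (m + 1) + 8 * K + 4) (Cst ^ (m + 1))
  set ω : Fin (m + 1) → ℕ := Fin.cons ω₀ (fun i : Fin m => w i) with hωdef
  have hω0 : ω 0 = ω₀ := rfl
  have hωs : ∀ i : Fin m, ω i.succ = w i := fun _ => rfl
  have hwpos : ∀ i, 0 < w i := fun i => lt_of_le_of_lt (Nat.zero_le _) (hpq i).1
  have hω : ∀ i, 0 < ω i := by
    intro i
    refine Fin.cases ?_ (fun j => ?_) i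
    · rw [hω0]; omega
    · rw [hωs]; exact hwpos _
  have hqR : ∀ i, (1 : ℝ) ≤ q i := fun i =>
    le_trans (Real.one_le_exp (mul_nonneg (by linarith) (Nat.cast_nonneg _))) (hpq i).2.1
  have hq : ∀ i, 0 < q i := fun i => by have := hqR i; exact_mod_cast (by linarith : (0 : ℝ) < q i)
  have hp : ∀ i, p i ≠ 0 := by
    intro i h0
    have h1 := (hpq i).2.2.2
    rw [h0] at h1
    have h2 : (1 : ℝ) / (q i : ℝ) ^ ν ≤ 1 := by
      rw [div_le_one (Real.rpow_pos_of_pos (by linarith [hqR i]) _)]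
      exact Real.one_le_rpow (hqR i) (by linarith)
    have h3 := Real.pi_gt_three
    simp only [Int.cast_zero, zero_div, sub_zero] at h1
    rw [abs_of_pos Real.pi_pos] at h1
    linarith
  have hhier : ∀ l i : Fin (m + 1), l < i → Cst ^ (m + 1) * vw ω l < vw ω i := by
    intro l i hli
    obtain ⟨j, rfl⟩ := Fin.exists_succ_eq.2 (Fin.pos_iff_ne_zero.1 (lt_of_le_of_lt (Fin.zero_le l) hli))
    revert hli
    refine Fin.cases (fun _ => ?_) (fun l hli => ?_) l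
    · have := (hpq j).1
      simp only [vw_zero, vw_succ, hωs]; omega
    · simp only [vw_succ, hωs]
      exact hw l j (by simpa using hli)
  set c : Fin K → Fin m → Polynomial ℂ := fun k i => cpoly k (p i) (q i) (ω i.succ) with hc
  have hQne : ∀ i : Fin m, ((QQ (q i) (ω i.succ) : ℕ) : ℂ) ≠ 0 := fun i =>
    Nat.cast_ne_zero.2 (Nat.mul_pos (hq i) (Nat.lcmUpto_pos _)).ne'
  have hinj : ∀ i, Function.Injective (fun k => (c k i).coeff 0) := by
    intro i k k' h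
    simp only [hc, cpoly_coeff_zero] at h
    have hne : (2 * Complex.I * (p i : ℂ) * (Nat.lcmUpto (ω i.succ) : ℂ)) ≠ 0 := by
      refine mul_ne_zero (mul_ne_zero (mul_ne_zero two_ne_zero Complex.I_ne_zero) ?_) ?_
      · exact_mod_cast hp i
      · exact_mod_cast Nat.lcmUpto_ne_zero _
    have := mul_right_cancel₀ hne h
    exact Fin.ext (by exact_mod_cast this)
  obtain ⟨N₁, hN₁⟩ := zero_estimate hm (fun i => ((QQ (q i) (ω i.succ) : ℕ) : ℂ)) hQne ω hω c
    (fun k i => cpoly_dvd _ _ _ _) hinj Cst hC (by rw [hω0]; exact hC0) hhier x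
    (by linarith) hx1 (by rw [hω0]; exact hK) (x₂ + ε) hx
  obtain ⟨N₂, hN₂⟩ := asym (K := K) (fun i : Fin m => ω i.succ) (fun i => hω _) lamb
    (g + (Real.log 4 + 4)) (lamb - g + 1) ε x₁ x₂ hl hε hx₁ hx₂ he₂ hA1 hA2
  obtain ⟨s₁, s₂, s₃, T₀, H, hs, hS⟩ := hN₂ (max N₁ N₂) (le_max_right _ _)
  have hQ1 : ∀ i : Fin m, (QQ (q i) (ω i.succ) : ℝ) ≤ Real.exp ((g + (Real.log 4 + 4)) * ω i.succ) := by
    intro i
    rw [QQ, Nat.cast_mul, add_mul, Real.exp_add, hωs]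
    exact mul_le_mul (hpq i).2.2.1 (lcm_bound _) (Nat.cast_nonneg _) (Real.exp_pos _).le
  have hQ2 : ∀ i : Fin m, Real.exp ((lamb - (lamb - g + 1)) * ω i.succ) ≤ QQ (q i) (ω i.succ) := by
    intro i
    rw [QQ, Nat.cast_mul, hωs, show lamb - (lamb - g + 1) = g - 1 by ring]
    refine le_trans (hpq i).2.1 (le_mul_of_one_le_right (Nat.cast_nonneg _) ?_)
    exact_mod_cast Nat.lcmUpto_pos _
  have happ : ∀ i : Fin m, 2 * |Real.pi - (p i : ℝ) / (q i : ℝ)| ≤ Real.exp (-lamb * ω i.succ) := by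
    intro i
    rw [hωs]
    have h1 := (hpq i).2.2.2
    have h2 : Real.exp (ν * ((g - 1) * w i)) ≤ (q i : ℝ) ^ ν := by
      rw [mul_comm ν, Real.exp_mul]
      exact Real.rpow_le_rpow (Real.exp_pos _).le (hpq i).2.1 (by linarith)
    have h3 : (1 : ℝ) / (q i : ℝ) ^ ν ≤ Real.exp (-(ν * ((g - 1) * w i))) := by
      rw [Real.exp_neg, one_div]
      exact inv_anti₀ (Real.exp_pos _) h2
    have h4 : (2 : ℝ) ≤ Real.exp (w i) := by
      have h5 : (1 : ℝ) ≤ w i := by exact_mod_cast hwpos i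
      linarith [Real.add_one_le_exp (w i : ℝ)]
    have h6 : Real.exp (-lamb * w i) = Real.exp (w i) * Real.exp (-(ν * ((g - 1) * w i))) := by
      rw [← Real.exp_add, hlamb]; ring_nf
    rw [h6]
    exact mul_le_mul h4 (h1.le.trans h3) (abs_nonneg _) (Real.exp_pos _).le
  have hA1' : ∀ i : Fin m, 8 * K + 4 ≤ ω i.succ := by
    intro i
    have := (hpq i).1
    rw [hωs]; omega
  obtain ⟨S, γ, hSw, ⟨b₀, hb₀, hγ⟩, hrel⟩ := core (K := K) ω hω (fun i => p i) (fun i => q i) lamb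
    (g + (Real.log 4 + 4)) (lamb - g + 1) hl (by linarith) he₂ (fun i => hq i)
    hQ1 hQ2 happ hA1' (by rw [hω0]; exact hA0)
    (max N₁ N₂) s₁ s₂ s₃ T₀ H hS
  obtain ⟨f, hf, hdual⟩ := hN₁ (max N₁ N₂) (le_max_left _ _) (s₁ + s₂) hs b₀.1 b₀.2
  have h1 := hrel f hf
  rw [Finset.sum_eq_single b₀] at h1
  · rw [hdual b₀.1 b₀.2 (hSw _ hb₀)] at h1
    simp at h1
    exact hγ h1
  · intro b hb hne
    rw [hdual b.1 b.2 (hSw _ hb), if_neg, mul_zero]
    rintro ⟨h1, h2⟩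
    exact hne (Prod.ext h1 h2)
  · intro h; exact absurd hb₀ h

end Crest.Agent.R11
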